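import Crest.Agent.X262.Wd54.Pf
import Crest.Agent.X262.Geo.Val
import Crest.Agent.X277.Pst.Rk
import Crest.Agent.R276.FGSub_595

/-!
# Row 262, WD (helper54), part 1: the Gauss extension to a product field

`h : IsPF α β`, `α : F → E`, `β : L → E`.

* `dn α W`, `ri α W` : restriction of a valuation ring, the residue field extension;
* `rt β W h`         : `L` in the residue field of `W`, when `W` is trivial on `L`;
* `Gx α β W`         : `W` is the Gauss extension of its restriction to `F`;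
* `exists_gx`, `Gx.unique`, `Gx.isPF`, `Gx.dvs`, `Gx.od_pb` : existence, uniqueness, residue field,
  `e = 1`;
* `gx_of_rk`         : a valuation ring with enough independent residues is a Gauss extension.
-/

set_option autoImplicit false
set_option linter.unusedSectionVars false

noncomputable section

namespace Crest.Agent.X262.Wd

open scoped TensorProduct
open Crest.Agent.X277 Crest.Agent.X277.BD Crest.Agent.X277.Pst Crest.Agent.X277.BD.Cyc
open Crest.Agent.X277.Neg (nv IsNv isNv_nv)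
open Crest.Agent.X262.Geo
open Crest.Agent.R274.Prod1_134 Algebra.TensorProduct Set WithZero
open Crest.Agent.R276.DivVal_858 (ResInd)

variable {k F L E κ : Type} [Field k] [Field F] [Field L] [Field E] [Field κ] [Algebra k F]
  [Algebra k L] [Algebra k E] [Algebra k κ]

/-- restriction of a valuation ring -/
abbrev dn (α : F →ₐ[k] E) (W : RZ k E) : RZ k F := cm (α : F →+* E) (alg_ov α) W

theorem mem_dn {α : F →ₐ[k] E} {W : RZ k E} {x : F} : x ∈ (dn α W).1 ↔ α x ∈ W.1 := Iff.rfl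

theorem dn_le_iff {α : F →ₐ[k] E} {W : RZ k E} {x y : F} :
    (dn α W).v x ≤ (dn α W).v y ↔ W.v (α x) ≤ W.v (α y) := v_cm_le_iff _ _

theorem dn_eq_iff {α : F →ₐ[k] E} {W : RZ k E} {x y : F} :
    (dn α W).v x = (dn α W).v y ↔ W.v (α x) = W.v (α y) := v_cm_eq_iff _ _

theorem dn_lt_one {α : F →ₐ[k] E} {W : RZ k E} {x : F} : (dn α W).v x < 1 ↔ W.v (α x) < 1 := by
  have h := v_cm_lt_iff (α : F →+* E) (alg_ov α) (W := W) (x := x) (y := 1)
  rwa [map_one, map_one, map_one] at h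

theorem dn_eq_one {α : F →ₐ[k] E} {W : RZ k E} {x : F} : (dn α W).v x = 1 ↔ W.v (α x) = 1 := by
  have h := dn_eq_iff (α := α) (W := W) (x := x) (y := 1)
  rwa [map_one, map_one, map_one] at h

theorem dn_dn {M : Type} [Field M] [Algebra k M] (γ : M →ₐ[k] F) (α : F →ₐ[k] E) (W : RZ k E) :
    dn γ (dn α W) = dn (α.comp γ) W := rfl

theorem dn_eq_top {α : F →ₐ[k] E} {W : RZ k E} : (dn α W).1 = ⊤ ↔ ∀ x, α x ∈ W.1 :=
  ⟨fun h x => mem_dn.1 (h ▸ ValuationSubring.mem_top x), fun h => eq_top_iff.2 fun x _ => h x⟩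

/-- the residue of an element -/
abbrev rr (W : RZ k E) (x : E) : Rf W := (plV W).r x

theorem rr_surj (W : RZ k E) (y : Rf W) : ∃ x ∈ W.1, rr W x = y := by
  obtain ⟨x, rfl⟩ := surj_plV W y
  exact ⟨x, x.2, (plV W).r_coe x⟩

theorem r_not {p : Pl k F k κ} {x : F} (hx : x ∉ p.V.1) : p.r x = 0 := dif_neg hx

theorem rr_ne_zero {W : RZ k E} {x : E} : rr W x ≠ 0 ↔ W.v x = 1 := Pl.r_ne_zero_iff

theorem rr_eq_zero {W : RZ k E} {x : E} (hx : x ∈ W.1) : rr W x = 0 ↔ W.v x < 1 :=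
  Pl.r_eq_zero (p := plV W) hx

/-- the embedding of the residue field given by a linear place -/
def lf (p : Pl k F k κ) (hp : Lnr p) : Rf p.V →ₐ[k] κ :=
  haveI : IsLocalHom p.φ := ⟨fun x hx => by
    rw [ValuationSubring.valuation_eq_one_iff]
    exact Pl.r_ne_zero_iff.1 (by rw [p.r_coe]; exact hx.ne_zero)⟩
  { IsLocalRing.ResidueField.lift p.φ with
    commutes' := fun c => (IsLocalRing.ResidueField.lift_residue_apply p.φ _).trans
      ((p.r_eq (p.V.2 c)).symm.trans (hp c)) }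

theorem lf_rr (p : Pl k F k κ) (hp : Lnr p) (x : F) : lf p hp (rr p.V x) = p.r x := by
  by_cases hx : x ∈ p.V.1
  · have : IsLocalHom p.φ := ⟨fun x hx => by
      rw [ValuationSubring.valuation_eq_one_iff]
      exact Pl.r_ne_zero_iff.1 (by rw [p.r_coe]; exact hx.ne_zero)⟩
    rw [rr, (plV p.V).r_eq hx, p.r_eq hx]
    exact IsLocalRing.ResidueField.lift_residue_apply p.φ _
  · rw [rr, r_not hx, r_not (p := plV p.V) hx, map_zero]

/-- restriction of a place -/
def pre (p : Pl k E k κ) (α : F →ₐ[k] E) : Pl k F k κ where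
  V := dn α p.V
  φ := p.φ.comp (((α : F →+* E).comp (dn α p.V).1.subtype).codRestrict p.V.1 fun x => x.2)
  ker x := (p.ker _).trans dn_lt_one.symm
  ov c := by
    obtain ⟨c', hc⟩ := p.ov c
    exact ⟨c', (congrArg p.φ (Subtype.ext (α.commutes c))).trans hc⟩

theorem pre_r (p : Pl k E k κ) (α : F →ₐ[k] E) (x : F) : (pre p α).r x = p.r (α x) := by
  by_cases hx : α x ∈ p.V.1
  · rw [(pre p α).r_eq (x := x) hx, p.r_eq hx]
    rfl
  · rw [r_not hx, r_not (p := pre p α) hx]

theorem lnr_pre {p : Pl k E k κ} (hp : Lnr p) (α : F →ₐ[k] E) : Lnr (pre p α) := fun c => by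
  rw [pre_r, α.commutes]
  exact hp c

/-- the residue field extension -/
def ri (α : F →ₐ[k] E) (W : RZ k E) : Rf (dn α W) →ₐ[k] Rf W :=
  lf (pre (plV W) α) (lnr_pre (lnr_plV W) α)

theorem ri_rr (α : F →ₐ[k] E) (W : RZ k E) (x : F) : ri α W (rr (dn α W) x) = rr W (α x) :=
  (lf_rr (pre (plV W) α) _ x).trans (pre_r _ _ _)

/-- a subfield on which the valuation is trivial embeds in the residue field -/
def rt (β : L →ₐ[k] E) (W : RZ k E) (h : ∀ b, β b ∈ W.1) : L →ₐ[k] Rf W where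
  toFun b := rr W (β b)
  map_one' := by rw [map_one]; exact Pl.r_one _
  map_mul' x y := by rw [map_mul]; exact Pl.r_mul (h x) (h y)
  map_zero' := by rw [map_zero]; exact Pl.r_zero _
  map_add' x y := by rw [map_add]; exact Pl.r_add (h x) (h y)
  commutes' c := by rw [β.commutes]; exact lnr_plV W c

theorem rt_apply (β : L →ₐ[k] E) (W : RZ k E) (h : ∀ b, β b ∈ W.1) (b : L) :
    rt β W h b = rr W (β b) := rfl

theorem r_sum {p : Pl k E k κ} {ι : Type*} (s : Finset ι) {x : ι → E} (h : ∀ i ∈ s, x i ∈ p.V.1) :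
    p.r (∑ i ∈ s, x i) = ∑ i ∈ s, p.r (x i) := by
  classical
  induction s using Finset.induction_on with
  | empty => simp
  | insert i s hi ih =>
    rw [Finset.sum_insert hi, Finset.sum_insert hi, Pl.r_add (h i (by simp))
      (sum_mem fun j hj => h j (by simp [hj])), ih fun j hj => h j (by simp [hj])]

variable {α : F →ₐ[k] E} {β : L →ₐ[k] E} {W W' : RZ k E}

/-- `W` is the Gauss extension of its restriction to `F` -/
structure Gx (α : F →ₐ[k] E) (β : L →ₐ[k] E) (W : RZ k E) : Prop where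
  mem : ∀ b, β b ∈ W.1
  inj : Function.Injective (productMap (ri α W) (rt β W mem))

theorem v_of_mem (h : ∀ b, β b ∈ W.1) {b : L} (hb : b ≠ 0) : W.v (β b) = 1 :=
  Pl.r_ne_zero_iff.1 ((map_ne_zero (rt β W h)).2 hb)

theorem rr_sum (h : ∀ b, β b ∈ W.1) {n : ℕ} {x : Fin n → F} (hx : ∀ i, α (x i) ∈ W.1)
    (y : Fin n → L) : rr W (∑ i, α (x i) * β (y i)) =
      productMap (ri α W) (rt β W h) (∑ i, rr (dn α W) (x i) ⊗ₜ y i) := by
  rw [pm_sum, rr, r_sum _ fun i _ => mul_mem (hx i) (h _)]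
  exact Finset.sum_congr rfl fun i _ => by rw [Pl.r_mul (hx i) (h _), ri_rr, rt_apply]

namespace Gx

/-- the value of a sum -/
theorem v_sum (h : Gx α β W) {n : ℕ} {x : Fin n → F} {y : Fin n → L}
    (hy : LinearIndependent k y) {j : Fin n} (h0 : x j ≠ 0)
    (hj : ∀ i, (dn α W).v (x i) ≤ (dn α W).v (x j)) :
    W.v (∑ i, α (x i) * β (y i)) = W.v (α (x j)) := by
  have h1 : ∀ i, α (x i / x j) ∈ W.1 := fun i => mem_dn.1 ((RZ.le_iff h0).1 (hj i))
  have h2 : rr W (∑ i, α (x i / x j) * β (y i)) ≠ 0 := fun h3 => by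
    rw [rr_sum h.mem h1] at h3
    have h4 := eq_zero_of_sum hy ((injective_iff_map_eq_zero _).1 h.inj _ h3) j
    rw [div_self h0] at h4
    exact one_ne_zero ((Pl.r_one _).symm.trans h4)
  have h3 : ∑ i, α (x i) * β (y i) = α (x j) * ∑ i, α (x i / x j) * β (y i) := by
    rw [Finset.mul_sum]
    exact Finset.sum_congr rfl fun i _ => by rw [← mul_assoc, ← map_mul, mul_div_cancel₀ _ h0]
  rw [h3, map_mul, rr_ne_zero.1 h2, mul_one]

end Gx

theorem exists_v_range (V : RZ k F) {z : E} (hz : z ∈ (productMap α β).range) (h0 : z ≠ 0) :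
    ∃ a : F, a ≠ 0 ∧ ∀ W, Gx α β W → dn α W = V → W.v z = W.v (α a) := by
  obtain ⟨w, rfl⟩ := hz
  obtain ⟨n, x, y, hy, rfl⟩ := exists_rep w
  have h1 : productMap α β (∑ i, x i ⊗ₜ y i) ≠ 0 := h0
  rw [pm_sum] at h1
  obtain ⟨i, -, hi⟩ := Finset.exists_ne_zero_of_sum_ne_zero h1
  obtain ⟨j, -, hj⟩ := Finset.univ.exists_max_image (fun i => V.v (x i)) ⟨i, Finset.mem_univ i⟩
  have h2 : x j ≠ 0 := fun h3 => by
    have h4 := hj i (Finset.mem_univ i)
    rw [h3, map_zero, le_zero_iff, Valuation.zero_iff] at h4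
    exact hi (by rw [h4, map_zero, zero_mul])
  refine ⟨x j, h2, fun W hW e => ?_⟩
  subst e
  exact (congrArg W.v (pm_sum x y)).trans (hW.v_sum hy h2 fun i => hj i (Finset.mem_univ i))

/-- the value group does not grow -/
theorem exists_v (h : IsPF α β) (V : RZ k F) {z : E} (h0 : z ≠ 0) :
    ∃ a : F, a ≠ 0 ∧ ∀ W, Gx α β W → dn α W = V → W.v z = W.v (α a) := by
  obtain ⟨p, hp, q, hq, hq0, rfl⟩ := h.frac z
  obtain ⟨a, ha, h1⟩ := exists_v_range V hp (div_ne_zero_iff.1 h0).1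
  obtain ⟨b, hb, h2⟩ := exists_v_range V hq hq0
  exact ⟨a / b, div_ne_zero ha hb, fun W hW e => by
    rw [map_div₀, map_div₀, map_div₀, h1 W hW e, h2 W hW e]⟩

theorem Gx.unique (h : IsPF α β) (hW : Gx α β W) (hW' : Gx α β W') (e : dn α W = dn α W') :
    W = W' := by
  refine Subtype.ext (ValuationSubring.ext _ _ fun z => ?_)
  by_cases h0 : z = 0
  · simp [h0]
  · obtain ⟨a, -, h1⟩ := exists_v h (dn α W) h0
    rw [← RZ.le_one_iff, ← RZ.le_one_iff, h1 W hW rfl, h1 W' hW' e.symm, RZ.le_one_iff,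
      RZ.le_one_iff, ← mem_dn, ← mem_dn, e]

theorem gx_of_v (hm : ∀ b, β b ∈ W.1)
    (h : ∀ (n : ℕ) (x : Fin n → F) (y : Fin n → L), LinearIndependent k y → (∀ i, α (x i) ∈ W.1) →
      W.v (∑ i, α (x i) * β (y i)) < 1 → ∀ i, W.v (α (x i)) < 1) : Gx α β W := by
  refine ⟨hm, (injective_iff_map_eq_zero _).2 fun z hz => ?_⟩
  obtain ⟨n, x, y, hy, rfl⟩ := exists_rep z
  choose x' h1 h2 using fun i => rr_surj (dn α W) (x i)
  simp only [← h2] at hz ⊢
  rw [← rr_sum hm h1, Pl.r_eq_zero (sum_mem fun i _ => mul_mem (h1 i) (hm _))] at hz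
  refine Finset.sum_eq_zero fun i _ => ?_
  rw [show rr (dn α W) (x' i) = 0 from
    (Pl.r_eq_zero (h1 i)).2 (dn_lt_one.2 (h n x' y hy h1 hz i)), TensorProduct.zero_tmul]

/-- a valuation ring as a subalgebra -/
def sa (V : RZ k F) : Subalgebra k F := { V.1.toSubring with algebraMap_mem' := V.2 }

/-- the residue map on the subalgebra -/
def ra (V : RZ k F) : sa V →ₐ[k] Rf V where
  toFun x := rr V x
  map_one' := Pl.r_one _
  map_mul' x y := Pl.r_mul x.2 y.2
  map_zero' := Pl.r_zero _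
  map_add' x y := Pl.r_add x.2 y.2
  commutes' c := lnr_plV V c

theorem exists_gx_aux [IsAlgClosed k] (h : IsPF α β) (V : RZ k F) : ∃ W : RZ k E,
    ∀ z : sa V ⊗[k] L, productMap (α.comp (sa V).val) β z ∈ W.1 ∧
      (W.v (productMap (α.comp (sa V).val) β z) < 1 ↔
        Algebra.TensorProduct.map (ra V) (AlgHom.id k L) z = 0) := by
  have : IsDomain (Rf V ⊗[k] L) := isDomain_tensor
  have hf : Function.Injective (productMap (α.comp (sa V).val) β) := by
    have h1 : productMap (α.comp (sa V).val) β =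
        (productMap α β).comp (Algebra.TensorProduct.map (sa V).val (AlgHom.id k L)) := by
      ext x <;> simp
    rw [h1]
    exact h.inj.comp (Module.Flat.rTensor_preserves_injective_linearMap (M := L)
      (sa V).val.toLinearMap Subtype.val_injective)
  generalize productMap (α.comp (sa V).val) β = f at hf
  generalize Algebra.TensorProduct.map (ra V) (AlgHom.id k L) = φ
  have := RingHom.ker_isPrime φ
  obtain ⟨W, h1, h2⟩ := Cns.exists_val (f : sa V ⊗[k] L →+* E) (RingHom.ker φ) fun a ha => by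
    rw [(injective_iff_map_eq_zero _).1 hf a ha]
    exact zero_mem _
  refine ⟨⟨W, fun c => ?_⟩, fun z => ⟨h1 z, ?_⟩⟩
  · have h3 := h1 (algebraMap k _ c)
    rwa [RingHom.coe_coe, f.commutes] at h3
  · rw [← RingHom.mem_ker, ← not_iff_not, ← h2, Cns.un_iff_val, not_lt]
    exact ⟨fun h4 => le_antisymm ((W.valuation_le_one_iff _).2 (h1 z)) h4, fun h4 => h4.ge⟩

/-- existence of the Gauss extension -/
theorem exists_gx [IsAlgClosed k] (h : IsPF α β) (V : RZ k F) : ∃ W, Gx α β W ∧ dn α W = V := by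
  obtain ⟨W, h1⟩ := exists_gx_aux h V
  have h4 : ∀ x : sa V, α x ∈ W.1 := fun x => by simpa using (h1 (x ⊗ₜ 1)).1
  have h5 : ∀ x : sa V, W.v (α x) < 1 ↔ V.v x < 1 := fun x => by
    have h6 := (h1 (x ⊗ₜ 1)).2
    simp only [productMap_apply_tmul, map_one, mul_one, Algebra.TensorProduct.map_tmul] at h6
    refine h6.trans (Iff.trans ?_ (rr_eq_zero x.2))
    exact map_eq_zero (includeLeft (S := k) (R := k) (A := Rf V) (B := L))
  have h6 : dn α W = V := by
    refine Subtype.ext (ValuationSubring.ext _ _ fun x => ⟨fun hx => ?_, fun hx => h4 ⟨x, hx⟩⟩)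
    by_contra hc
    have h7 : 1 < V.v x := not_le.1 (mt RZ.le_one_iff.1 hc)
    have h8 : V.v x⁻¹ < 1 := by rw [map_inv₀]; exact inv_lt_one_of_one_lt₀ h7
    have h9 := (h5 ⟨x⁻¹, RZ.le_one_iff.1 h8.le⟩).2 h8
    have h0 : x ≠ 0 := RZ.ne_zero_iff.1 (zero_lt_one.trans h7).ne'
    change W.v (α x⁻¹) < 1 at h9
    rw [map_inv₀, map_inv₀, inv_lt_one₀ (RZ.pos ((map_ne_zero α).2 h0))] at h9
    exact not_le.2 h9 (RZ.le_one_iff.2 hx)
  refine ⟨W, gx_of_v (fun b => by simpa using (h1 (1 ⊗ₜ b)).1) fun n x y hy hx hv i => ?_, h6⟩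
  have h7 : ∀ i, x i ∈ sa V := fun i => (h6 ▸ mem_dn.2 (hx i) : x i ∈ V.1)
  have h8 := (h1 (∑ i, (⟨x i, h7 i⟩ : sa V) ⊗ₜ y i)).2.1 (by simpa [map_sum] using hv)
  simp only [map_sum, Algebra.TensorProduct.map_tmul, AlgHom.id_apply] at h8
  exact (h5 ⟨x i, h7 i⟩).2 ((rr_eq_zero (h7 i)).1 (eq_zero_of_sum hy h8 i))

namespace Gx

/-- the residue field is the product field -/
theorem isPF (h : IsPF α β) (hW : Gx α β W) : IsPF (ri α W) (rt β W hW.mem) := by
  have key : ∀ z ∈ (productMap α β).range, ∀ a : F, a ≠ 0 → W.v z = W.v (α a) →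
      rr W (z / α a) ∈ (productMap (ri α W) (rt β W hW.mem)).range := by
    rintro _ ⟨w, rfl⟩ a ha hv
    obtain ⟨n, x, y, hy, rfl⟩ := exists_rep w
    have h1 : productMap α β (∑ i, x i ⊗ₜ y i) = ∑ i, α (x i) * β (y i) := pm_sum x y
    change rr W (productMap α β _ / α a) ∈ _
    change W.v (productMap α β _) = _ at hv
    rw [h1] at hv ⊢
    have h2 : ∀ i, α (x i / a) ∈ W.1 := fun i => by
      by_cases h0 : x i = 0
      · simp [h0]
      obtain ⟨j, -, hj⟩ := Finset.univ.exists_max_image (fun i => (dn α W).v (x i))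
        ⟨i, Finset.mem_univ i⟩
      have h3 : x j ≠ 0 := RZ.ne_zero_iff.1 ((RZ.pos h0).trans_le (hj i (Finset.mem_univ i))).ne'
      rw [hW.v_sum hy h3 fun i => hj i (Finset.mem_univ i)] at hv
      rw [map_div₀, ← RZ.le_iff ((map_ne_zero α).2 ha), ← hv]
      exact dn_le_iff.1 (hj i (Finset.mem_univ i))
    have h3 : (∑ i, α (x i) * β (y i)) / α a = ∑ i, α (x i / a) * β (y i) := by
      rw [Finset.sum_div]
      exact Finset.sum_congr rfl fun i _ => by rw [map_div₀, div_mul_eq_mul_div]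
    rw [h3, rr_sum hW.mem h2]
    exact ⟨_, rfl⟩
  refine ⟨hW.inj, fun y => ?_⟩
  by_cases h0 : y = 0
  · exact ⟨0, zero_mem _, 1, one_mem _, one_ne_zero, by simp [h0]⟩
  obtain ⟨z, hz, rfl⟩ := rr_surj W y
  have h1 : W.v z = 1 := Pl.r_ne_zero_iff.1 h0
  obtain ⟨p, hp, q, hq, hq0, rfl⟩ := h.frac z
  obtain ⟨a, ha, h2⟩ := exists_v_range (dn α W) hq hq0
  have h3 := h2 W hW rfl
  have ha' : α a ≠ 0 := (map_ne_zero α).2 ha
  rw [map_div₀, div_eq_one_iff_eq (RZ.ne_zero_iff.2 hq0)] at h1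
  have h4 : W.v (q / α a) = 1 := by rw [map_div₀, h3, div_self (RZ.ne_zero_iff.2 ha')]
  have h5 : W.v (p / α a) = 1 := by rw [map_div₀, h1, h3, div_self (RZ.ne_zero_iff.2 ha')]
  refine ⟨_, key p hp a ha (h1.trans h3), _, key q hq a ha h3, Pl.r_ne_zero_iff.2 h4, ?_⟩
  rw [← Pl.r_div (p := plV W) (RZ.le_one_iff.1 h5.le) h4, div_div_div_cancel_right₀ ha']

theorem ne_top_iff (h : IsPF α β) (hW : Gx α β W) : W.1 ≠ ⊤ ↔ (dn α W).1 ≠ ⊤ := by
  refine not_congr ⟨fun h1 => dn_eq_top.2 fun x => h1 ▸ ValuationSubring.mem_top _,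
    fun h1 => eq_top_iff.2 fun z _ => ?_⟩
  by_cases h0 : z = 0
  · simp [h0]
  · obtain ⟨a, -, h2⟩ := exists_v h (dn α W) h0
    rw [← RZ.le_one_iff, h2 W hW rfl, RZ.le_one_iff]
    exact dn_eq_top.1 h1 a

end Gx

section Dim

variable [CharZero k]

theorem essFT_of_hom [Algebra.EssFiniteType k E] (α : F →ₐ[k] E) : Algebra.EssFiniteType k F := by
  let _ := α.toRingHom.toAlgebra
  have : IsScalarTower k F E := IsScalarTower.of_algebraMap_eq fun c => (α.commutes c).symm
  exact R276.FGSub_595.essFiniteType_of_tower k F E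

theorem exists_tb (k F : Type) [Field k] [Field F] [Algebra k F] [CharZero k]
    [Algebra.EssFiniteType k F] : ∃ s : Fin (dim k F) → F, IsTranscendenceBasis k s := by
  obtain ⟨t, ht⟩ := exists_isTranscendenceBasis k F
  have h1 := ht.cardinalMk_eq_trdeg
  rw [trdeg_eq_dim] at h1
  obtain ⟨e⟩ := Cardinal.mk_eq_nat_iff.1 h1
  exact ⟨_, ht.comp_equiv e.symm⟩

theorem essFT_pf [Algebra.EssFiniteType k F] [Algebra.EssFiniteType k L] (h : IsPF α β) :
    Algebra.EssFiniteType k E := by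
  classical
  obtain ⟨s, hs⟩ := IntermediateField.fg_top_iff.2 ‹Algebra.EssFiniteType k F›
  obtain ⟨t, ht⟩ := IntermediateField.fg_top_iff.2 ‹Algebra.EssFiniteType k L›
  refine IntermediateField.fg_top_iff.1 ⟨s.image α ∪ t.image β, eq_top_iff.2 ?_⟩
  rw [← h.adjoin_eq, IntermediateField.adjoin_le_iff]
  rintro _ (⟨x, rfl⟩ | ⟨x, rfl⟩)
  · have h1 : (IntermediateField.adjoin k (s : Set F)).map α ≤
        IntermediateField.adjoin k ((s.image α ∪ t.image β : Finset E) : Set E) := by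
      rw [IntermediateField.adjoin_map]
      exact IntermediateField.adjoin.mono k _ _ (by simp)
    exact h1 ⟨x, hs ▸ IntermediateField.mem_top, rfl⟩
  · have h1 : (IntermediateField.adjoin k (t : Set L)).map β ≤
        IntermediateField.adjoin k ((s.image α ∪ t.image β : Finset E) : Set E) := by
      rw [IntermediateField.adjoin_map]
      exact IntermediateField.adjoin.mono k _ _ (by simp)
    exact h1 ⟨x, ht ▸ IntermediateField.mem_top, rfl⟩

theorem dim_pf [Algebra.EssFiniteType k F] [Algebra.EssFiniteType k L] (h : IsPF α β) :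
    dim k E = dim k F + dim k L := by
  have := essFT_pf h
  obtain ⟨s, hs⟩ := exists_tb k F
  obtain ⟨t, ht⟩ := exists_tb k L
  have h1 := (isTB_sum h hs ht).cardinalMk_eq_trdeg
  rw [trdeg_eq_dim] at h1
  simp only [Cardinal.mk_sum, Cardinal.mk_fin, Cardinal.lift_natCast] at h1
  exact_mod_cast h1.symm

variable [Algebra.EssFiniteType k F] [Algebra.EssFiniteType k L]

theorem Gx.dvs (h : IsPF α β) (hW : Gx α β W) (hV : Dvs (dn α W)) : Dvs W := by
  have := essFT_pf h
  have := essFT_Rf hV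
  have := essFT_pf (hW.isPF h)
  refine dvs_of_dim ((hW.ne_top_iff h).2 hV.ne_top) ?_
  rw [dim_pf h, dim_pf (hW.isPF h), dim_Rf' hV]
  omega

theorem Gx.nv_eq (h : IsPF α β) (hW : Gx α β W) (hV : Dvs (dn α W)) (x : F) :
    nv W (α x) = nv (dn α W) x := by
  have := essFT_pf h
  have hD := hW.dvs h hV
  have h1 : ∃ t, (nv W).comap (α : F →+* E) t = exp (-1) := by
    obtain ⟨t, ht⟩ := nv_unif hD
    have h0 : t ≠ 0 := fun h0 => exp_ne_zero (by rw [← ht, h0, map_zero])
    obtain ⟨a, -, h2⟩ := exists_v h (dn α W) h0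
    exact ⟨a, ((nv_eq_iff hD).2 (h2 W hW rfl)).symm.trans ht⟩
  have h2 : (nv W).comap (α : F →+* E) = nv (dn α W) :=
    AN.G2.val_eq_of_equiv (fun y => (nv_le_one hD).trans (nv_le_one hV).symm) h1 (nv_unif hV)
  exact congrArg (fun v : Valuation F ℤᵐ⁰ => v x) h2

/-- the ramification index is one -/
theorem Gx.od_pb (h : IsPF α β) (hW : Gx α β W) (hV : Dvs (dn α W)) (a : BD k F) :
    od W (pb α a) = od (dn α W) a := by
  have := essFT_pf h
  rw [od_of_gen (hW.dvs h hV) (a := pb α a) (val_mp_gen a W).symm, od_of_gen hV (v_gen a _)]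
  exact congrArg log (hW.nv_eq h hV _)

omit [CharZero k] [Algebra.EssFiniteType k F] [Algebra.EssFiniteType k L] in
theorem rk_range (α : F →ₐ[k] E) (W : RZ k E) :
    (rm W).eRk (range α) = (rm (dn α W)).eRk univ := by
  rw [rk_cm, image_univ]

omit [CharZero k] [Algebra.EssFiniteType k F] [Algebra.EssFiniteType k L] in
theorem alg_of_cl {V : RZ k F} {ι : Type*} {s : ι → F}
    (h : ∀ x, x ∈ (rm V).closure (range s)) :
    Algebra.IsAlgebraic (Algebra.adjoin k (range fun i => rr V (s i))) (Rf V) := ⟨fun y => by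
  obtain ⟨x, -, rfl⟩ := rr_surj V y
  have h1 := mem_cl_iff.1 (h x)
  rw [← range_comp] at h1
  exact h1⟩

/-- a valuation ring with enough independent residues is a Gauss extension -/
theorem gx_of_rk [IsAlgClosed k] (h : IsPF α β) (hV : (dn α W).1 ≠ ⊤)
    (hr : (dim k E : ℕ∞) ≤ (rm W).eRk (range α ∪ range β) + 1) : Gx α β W ∧ Dvs (dn α W) := by
  have := essFT_pf h
  obtain ⟨a, ha⟩ := ENat.ne_top_iff_exists.1 (rk_ne_top W (range α))
  obtain ⟨b, hb⟩ := ENat.ne_top_iff_exists.1 (rk_ne_top W (range β))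
  obtain ⟨c, hc⟩ := ENat.ne_top_iff_exists.1 (rk_ne_top W (range α ∪ range β))
  have h1 : c ≤ a + b := by
    have h2 := (rm W).eRk_union_le_eRk_add_eRk (range α) (range β)
    rw [← ha, ← hb, ← hc] at h2
    exact_mod_cast h2
  have h2 : a + 1 ≤ dim k F := by
    have h3 := rk_succ_le hV univ
    rw [← rk_range, ← ha] at h3
    exact_mod_cast h3
  have h3 : b ≤ dim k L := by
    have h4 := rk_le (dn β W) univ
    rw [← rk_range, ← hb] at h4
    exact_mod_cast h4
  have h4 : dim k F + dim k L ≤ c + 1 := by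
    rw [← hc, dim_pf h] at hr
    exact_mod_cast hr
  have hm : ∀ b, β b ∈ W.1 := dn_eq_top.1 (by_contra fun h5 => by
    have h6 := rk_succ_le h5 univ
    rw [← rk_range, ← hb] at h6
    have h7 : b + 1 ≤ dim k L := by exact_mod_cast h6
    omega)
  have hD : Dvs (dn α W) := dvs_iff.2 ⟨hV, by
    rw [← rk_range, ← ha]
    exact_mod_cast (show dim k F ≤ a + 1 by omega)⟩
  refine ⟨⟨hm, ?_⟩, hD⟩
  obtain ⟨s, -, hs⟩ := le_rk_iff.1 (ha.trans (rk_range α W)).le
  obtain ⟨t, -, ht⟩ := le_rk_iff.1 (hb.trans (rk_range β W)).le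
  have span : ∀ {M : Type} [Field M] [Algebra k M] [Algebra.EssFiniteType k M] {V : RZ k M} {n : ℕ}
      {u : Fin n → M}, (n : ℕ∞) = (rm V).eRk univ → ResInd k V.1 u →
      ∀ x, x ∈ (rm V).closure (range u) := fun {M} _ _ _ {V} {n} {u} h5 h6 x => by
    by_contra hx
    have h7 := (rm V).eRk_mono (subset_univ (insert x (range u)))
    rw [Matroid.eRk_insert_eq_add_one ⟨mem_univ x, hx⟩, ← h5] at h7
    have h8 : (n : ℕ∞) ≤ (rm V).eRk (range u) := le_rk_iff.2 ⟨u, fun i => ⟨i, rfl⟩, h6⟩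
    have h9 : (n : ℕ∞) + 1 ≤ n := (add_le_add_left h8 1).trans h7
    have h10 : n + 1 ≤ n := by exact_mod_cast h9
    omega
  have h5 := span (ha.trans (rk_range α W)) hs
  have h6 := span (hb.trans (rk_range β W)) ht
  have up : ∀ {M : Type} [Field M] [Algebra k M] (γ : M →ₐ[k] E) {n : ℕ} {u : Fin n → M},
      (∀ x, x ∈ (rm (dn γ W)).closure (range u)) →
      range γ ⊆ (rm W).closure (range (γ ∘ u)) := fun {M} _ _ γ {n} {u} h7 => by
    rintro _ ⟨x, rfl⟩
    have h8 := isAlg_map (ri γ W) (ri γ W).injective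
      (R := Algebra.adjoin k (range fun i => rr W (γ (u i))))
      (by
        rintro _ ⟨_, ⟨i, rfl⟩, rfl⟩
        rw [ri_rr]
        exact Algebra.subset_adjoin ⟨i, rfl⟩) ((alg_of_cl h7).1 (rr _ x))
    rw [ri_rr] at h8
    rw [mem_cl_iff, ← range_comp]
    exact h8
  have h7 : ((a + b : ℕ) : ℕ∞) ≤ (rm W).eRk (range (Sum.elim (α ∘ s) (β ∘ t))) := by
    refine le_trans (by rw [← hc]; exact_mod_cast (show a + b ≤ c by omega)) (rk_le_of_sub ?_)
    rw [Sum.elim_range]
    exact union_subset ((up α h5).trans ((rm W).closure_mono subset_union_left))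
      ((up β h6).trans ((rm W).closure_mono subset_union_right))
  have h8 : (range (Sum.elim (α ∘ s) (β ∘ t))).encard ≤ ((a + b : ℕ) : ℕ∞) := by
    rw [← image_univ]
    exact (encard_image_le _ _).trans (by simp)
  have h9 : (rm W).Indep (range (Sum.elim (α ∘ s) (β ∘ t))) :=
    (Matroid.indep_iff_eRk_eq_encard_of_finite (finite_range _)).2
      (le_antisymm ((rm W).eRk_le_encard _) (h8.trans h7))
  have h10 : Function.Injective (Sum.elim (α ∘ s) (β ∘ t)) := by
    rw [← injOn_univ]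
    refine (finite_univ.injOn_of_encard_image_eq ?_)
    rw [image_univ]
    exact le_antisymm (h8.trans (by simp)) (le_trans (by simp) (h7.trans ((rm W).eRk_le_encard _)))
  have h11 := resInd_iff_res.1 (resInd_of_indep h9 h10 fun i => ⟨i, rfl⟩)
  have h12 : Algebra.IsAlgebraic (Algebra.adjoin k (range t)) L :=
    (ht.algInd.isTranscendenceBasis_of_trdeg_le_of_finite (by
      rw [trdeg_eq_dim, Cardinal.mk_fin]
      exact_mod_cast (show dim k L ≤ b by omega))).isAlgebraic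
  refine inj_of_algInd (alg_of_cl h5) h12 ?_
  have h13 : Sum.elim (ri α W ∘ fun i => rr (dn α W) (s i)) (rt β W hm ∘ t) =
      fun i => rr W (Sum.elim (α ∘ s) (β ∘ t) i) := by
    funext i
    rcases i with i | i
    · exact ri_rr α W _
    · rfl
  rw [h13]
  exact h11

end Dim

end Crest.Agent.X262.Wd
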