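import Crest.Agent.X262.Vb.Defs
import Crest.Agent.X262.Node22.Defs
import Crest.Agent.X262.Val40.Pull

/-!
# Row 262, road B, WDVV (helper54): definitions and the list of statements

* `gl` : glued configuration of two data; `GUniv` : the universal glued datum; `tv` : transvection;
* `NP`, `GeqN`, `Mul`, `Lat` : two configurations with a common norming refinement;
* `ful` : virtual number with a weight (top Chern number if the configuration lies on the target);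
* `vrd` : virtual number with the class of the diagonal; `om` : excess class of the diagonal;
* the statements `ClassStmt`, `Class2Stmt`, `ChartStmt`, `CountStmt`, `NotOnStmt`, `LatStmt`,
  `PbdStmt`, `NodeStmt`, `ProdStmt`, `OrdStmt`, `SplitStmt`.
-/

set_option autoImplicit false
set_option linter.unusedSectionVars false

noncomputable section

namespace Crest.Agent.X262.Wd54

open Crest.Agent.X277 Crest.Agent.X277.BD Crest.Agent.X277.Pst Crest.Agent.X277.BD.Cyc Polynomial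
open Crest.Agent.X262.Geo (od)
open Crest.Agent.X277.Neg (nv)
open Crest.Agent.X262.Hb Crest.Agent.X262.Vb Crest.Agent.X262.Node22
open Crest.Agent.X262.Val40 (dn rf)

variable {J : Type} [Fintype J] [DecidableEq J] {io : J → Type} [∀ j, Fintype (io j)]
  [∀ j, DecidableEq (io j)] {A : Type} [Fintype A]

section Geo

variable {K E : Type} [Field K] [Algebra ℂ K] [Field E] [Algebra ℂ E] {d d₁ d₂ : J → ℕ}
  {I I' I₁ I₂ M M₁ M₂ : Type}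

/-- the glued configuration of two data -/
def gl [Fintype I₁] [Fintype I₂] (η₁ : Dat io d₁ I₁ K) (η₂ : Dat io d₂ I₂ K) (q₁ : I₁) (q₂ : I₂) :
    Cfg io (I₁ ⊕ I₂) K :=
  jn (pair η₁.cfg η₂.cfg) (Sum.inl q₁) (Sum.inr q₂)

/-- three points are `∞, 0, 1` -/
def N3 (ξ : Dat io d M K) : Prop := ∃ a b c, ξ.x a = none ∧ ξ.x b = some 0 ∧ ξ.x c = some 1

/-- the universal glued datum -/
structure GUniv [Fintype M₁] [Fintype M₂] (ζ₁ : Dat io d₁ M₁ K) (ζ₂ : Dat io d₂ M₂ K) (n₁ : M₁)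
    (n₂ : M₂) : Prop where
  n1 : N3 ζ₁
  n2 : N3 ζ₂
  par : Par (ζ₁.cfg.y n₁) (ζ₂.cfg.y n₂)
  gen : IntermediateField.adjoin ℂ (ζ₁.crd ∪ ζ₂.crd) = ⊤
  dm : dim ℂ K + dimP io = mdim io d₁ (Fintype.card M₁) + mdim io d₂ (Fintype.card M₂)

/-- `ξ'` is obtained from `ξ` by the transvection with pivots `i₀` and entries `u` -/
def Tv (i₀ : (j : J) → io j) (u : Vr io → K) (ξ ξ' : Dat io d I K) : Prop :=
  (∀ j, u ⟨j, i₀ j⟩ = 0) ∧ ξ'.x = ξ.x ∧ ∀ j i, ξ'.f j i = ξ.f j i + C (u ⟨j, i⟩) * ξ.f j (i₀ j)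

/-- the ratios of the coordinates of a point -/
def rat (y : Pnt io K) : Set K := {t | ∃ j i i', t = y j i / y j i'}

/-- the points `g` are norming for `w` in multidegrees up to `N` -/
def NP (N : ℕ) (w : Cfg io I' E) (g : I → I') : Prop :=
  ∀ κ : J → ℕ, (∀ j, κ j ≤ N) → ∀ σ ∈ w.V κ, ∀ (W : RZ ℂ E) (γ : W.1.ValueGroup),
    (∀ q, W.v (σ (g q)) ≤ γ * (lw κ (w.y (g q))).val W) →
    ∀ q, W.v (σ q) ≤ γ * (lw κ (w.y q)).val W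

/-- gauge equivalence in multidegrees up to `N` -/
def GeqN (N : ℕ) (z z' : Cfg io I E) : Prop :=
  ∃ c : I → J → E, (∀ q j, c q j ≠ 0) ∧ z'.y = (z.gau c).y ∧
    ∀ κ : J → ℕ, (∀ j, κ j ≤ N) → z'.V κ = (z.gau c).V κ

/-- the spaces of sections form a graded algebra which contains the coordinates -/
structure Mul (z : Cfg io I E) : Prop where
  one : (1 : I → E) ∈ z.V 0
  crd : ∀ j i, (fun q => z.y q j i) ∈ z.V (Pi.single j 1)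
  mul : ∀ κ κ', ∀ σ ∈ z.V κ, ∀ σ' ∈ z.V κ', σ * σ' ∈ z.V (κ + κ')

/-- two marked configurations with a common norming refinement -/
def Lat (N : ℕ) (z : Cfg io I E) (m : M → I) (z' : Cfg io I' E) (m' : M → I') : Prop :=
  ∃ (I'' : Type) (_ : Fintype I'') (w : Cfg io I'' E) (g : I → I'') (g' : I' → I''),
    w.NZ ∧ Mul w ∧ NP N w g ∧ NP N w g' ∧ GeqN N (w.res g) z ∧ GeqN N (w.res g') z' ∧
    ∀ q, Par (z.y (m q)) (z'.y (m' q))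

/-- the marks of the two components -/
def mk [DecidableEq M] (S : Finset M) :
    Fin 4 ⊕ M → (Fin 3 ⊕ {q // q ∈ S}) ⊕ (Fin 3 ⊕ {q // q ∉ S}) :=
  Sum.elim ![.inl (.inl 0), .inl (.inl 1), .inr (.inl 1), .inr (.inl 2)]
    fun q => if h : q ∈ S then .inl (.inr ⟨q, h⟩) else .inr (.inr ⟨q, h⟩)

/-- the normalised reduction of a point; `(z.red p).y q = rp p (z.y q)` -/
def rp (p : Pl ℂ K ℂ E) (y : Pnt io K) : Pnt io E :=
  redP p (scl (fun j => ((ln y j).gen p.V)⁻¹) y)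

theorem red_y (p : Pl ℂ K ℂ E) (z : Cfg io I K) (q : I) : (z.red p).y q = rp p (z.y q) := rfl

end Geo

section Num

variable (B : Th) (T : Tgt io A) {I M M₁ M₂ : Type} [Fintype I] {E : Type} [Field E] [Algebra ℂ E]

variable {B} in
/-- external product -/
def ten (Φ₁ : MFam B io M₁) (Φ₂ : MFam B io M₂) : MFam B io (M₁ ⊕ M₂) :=
  fun E _ _ y => Φ₁ E (fun q => y (Sum.inl q)) * Φ₂ E fun q => y (Sum.inr q)

variable {B} in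
/-- insertion of a class at a mark -/
def ins (Φ : MFam B io M) (n : M) (e : Fam B io) : MFam B io M := fun E _ _ y => Φ E y * e E (y n)

open Classical in
/-- the virtual number with weight `ω`; the top Chern number if `z` lies on the target -/
def ful (z : Cfg io I E) (m : M → I) (Φ : MFam B io M) (ω : B.H E) : ℂ :=
  if z.On T then B.itg E (ω * ((B.cp (z.ea T) (z.Eb T)).eval 0 * Φ E fun q => z.y (m q)))
  else ∑ᶠ (W : RZ ℂ E) (_ : Dvs W),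
    od W (z.dv T) * B.itg (Rf W) (B.pb (LP.at W) ω * trm B T z m Φ W)

/-- the virtual number with the class of the diagonal at the points `q, q'` -/
def vrd (z : Cfg io I E) (m : M → I) (Φ : MFam B io M) (q q' : I) : ℂ :=
  ∑ᶠ (W : RZ ℂ E) (_ : Dvs W), od W (z.dv T) * B.itg (Rf W)
    (trm B T z m Φ W * dgc B T ((z.red (plV W)).y q) ((z.red (plV W)).y q'))

/-- the excess class of the diagonal of the ambient space on the component `V` -/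
def om (y y' : Pnt io E) (V : RZ ℂ E) : B.H (Rf V) :=
  (B.cq (da (rp (plV V) y) (rp (plV V) y')) (TP (rp (plV V) y) (rp (plV V) y'))).eval
    (B.pb (LP.at V) (B.c1 (dh y y')))

end Num

/-! ### geometric statements -/

/-- CLASS (owner 30): the components of the boundary divisor `t = 0` -/
def ClassStmt : Prop :=
  ∀ {J : Type} [Fintype J] [DecidableEq J] {io : J → Type} [∀ j, Fintype (io j)]
    [∀ j, DecidableEq (io j)] {d : J → ℕ} {M K₀ : Type} [Fintype M] [DecidableEq M] [Field K₀]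
    [Algebra ℂ K₀] [Algebra.EssFiniteType ℂ K₀] (ξ₀ : Dat io d (Fin 4 ⊕ M) K₀) (t : K₀),
    ξ₀.Univ → ξ₀.x (.inl 0) = none → ξ₀.x (.inl 1) = some 1 → ξ₀.x (.inl 2) = some 0 →
    ξ₀.x (.inl 3) = some t →
    ∃ V : Finset.Iic d × Finset M → RZ ℂ K₀, Function.Injective V ∧
      (∀ τ, Dvs (V τ) ∧ nv (V τ) t = WithZero.exp (-1)) ∧
      ∀ (N : ℕ) (K I : Type) [Field K] [Algebra ℂ K] [Algebra.EssFiniteType ℂ K] [Fintype I]
        (θ : K₀ →ₐ[ℂ] K) (η : Dat io d I K) (m : Fin 4 ⊕ M → I), 0 < deg θ →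
        (ξ₀.map θ).Eqv (η.res m) → η.NrmUp N → ∀ W : RZ ℂ K, Dvs W → W.v (θ t) < 1 →
        ∃ (E : Type) (_ : Field E) (_ : Algebra ℂ E) (_ : Algebra.EssFiniteType ℂ E)
          (ι : Rf W →ₐ[ℂ] E), 0 < deg ι ∧
          (((∀ τ, dn θ W ≠ V τ) ∧ ∃ (E' I' : Type) (_ : Field E') (_ : Algebra ℂ E')
              (_ : Fintype I') (β : E' →ₐ[ℂ] E) (z' : Cfg io I' E') (m' : Fin 4 ⊕ M → I'),
              dim ℂ E' < dim ℂ E ∧ Lat N ((η.cfg.red (plV W)).map ι) m (z'.map β) m') ∨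
          ∃ (τ : Finset.Iic d × Finset M) (k I₁ I₂ : Type) (_ : Field k) (_ : Algebra ℂ k)
            (_ : Fintype I₁) (_ : Fintype I₂) (θ' : k →ₐ[ℂ] E)
            (ζ₁ : Dat io τ.1 (Fin 3 ⊕ {q // q ∈ τ.2}) k)
            (ζ₂ : Dat io (d - τ.1) (Fin 3 ⊕ {q // q ∉ τ.2}) k)
            (ξ₁ : Dat io τ.1 I₁ E) (ξ₂ : Dat io (d - τ.1) I₂ E) (m₁ : _ → I₁) (m₂ : _ → I₂),
            dn θ W = V τ ∧ deg θ' = deg ι * deg (rf θ W) ∧ GUniv ζ₁ ζ₂ (.inl 2) (.inl 0) ∧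
            (ζ₁.map θ').Eqv (ξ₁.res m₁) ∧ (ζ₂.map θ').Eqv (ξ₂.res m₂) ∧ ξ₁.NrmUp N ∧ ξ₂.NrmUp N ∧
            Lat N ((η.cfg.red (plV W)).map ι) m (gl ξ₁ ξ₂ (m₁ (.inl 2)) (m₂ (.inl 0)))
              (Sum.map m₁ m₂ ∘ mk τ.2))

/-- CLASS2: pairs of data which are glued only at `V` -/
def Class2Stmt : Prop :=
  ∀ {J : Type} [Fintype J] [DecidableEq J] {io : J → Type} [∀ j, Fintype (io j)]
    [∀ j, DecidableEq (io j)] {d₁ d₂ : J → ℕ} {M₁ M₂ k F E₀ I₁ I₂ I₁' I₂' : Type} [Fintype M₁]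
    [Fintype M₂] [Field k] [Algebra ℂ k] [Field F] [Algebra ℂ F] [Algebra.EssFiniteType ℂ F]
    [Field E₀] [Algebra ℂ E₀] [Algebra.EssFiniteType ℂ E₀] [Fintype I₁] [Fintype I₂] [Fintype I₁']
    [Fintype I₂'] (N : ℕ) (ζ₁ : Dat io d₁ M₁ k) (ζ₂ : Dat io d₂ M₂ k) (n₁ : M₁) (n₂ : M₂),
    GUniv ζ₁ ζ₂ n₁ n₂ →
    ∀ (γ : k →ₐ[ℂ] F) (i₀ : (j : J) → io j) (u : Vr io → F) (ζ₂' : Dat io d₂ M₂ F),
    (∀ j, ζ₂.cfg.y n₂ j (i₀ j) ≠ 0) → Tv i₀ u (ζ₂.map γ) ζ₂' →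
    ∀ (η₁ : Dat io d₁ I₁ F) (η₂ : Dat io d₂ I₂ F) (m₁ : M₁ → I₁) (m₂ : M₂ → I₂),
    (ζ₁.map γ).Eqv (η₁.res m₁) → ζ₂'.Eqv (η₂.res m₂) → η₁.NrmUp N → η₂.NrmUp N →
    ∀ (θ₀ : k →ₐ[ℂ] E₀) (ξ₁ : Dat io d₁ I₁' E₀) (ξ₂ : Dat io d₂ I₂' E₀) (m₁' : M₁ → I₁')
      (m₂' : M₂ → I₂'), 0 < deg θ₀ →
    (ζ₁.map θ₀).Eqv (ξ₁.res m₁') → (ζ₂.map θ₀).Eqv (ξ₂.res m₂') → ξ₁.NrmUp N → ξ₂.NrmUp N →
    ∀ V : RZ ℂ F, Dvs V → Par (rp (plV V) (η₁.cfg.y (m₁ n₁))) (rp (plV V) (η₂.cfg.y (m₂ n₂))) →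
    ∃ (E : Type) (_ : Field E) (_ : Algebra ℂ E) (_ : Algebra.EssFiniteType ℂ E)
      (ι : Rf V →ₐ[ℂ] E), 0 < deg ι ∧
      (((¬∀ x, γ x ∈ V.1) ∧ ∃ (E' I' : Type) (_ : Field E') (_ : Algebra ℂ E') (_ : Fintype I')
          (β : E' →ₐ[ℂ] E) (z' : Cfg io I' E') (m' : M₁ ⊕ M₂ → I'), dim ℂ E' < dim ℂ k ∧
          Lat N ((jn ((pair η₁.cfg η₂.cfg).red (plV V)) (.inl (m₁ n₁)) (.inr (m₂ n₂))).map ι)
            (Sum.map m₁ m₂) (z'.map β) m') ∨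
      ((∀ x, γ x ∈ V.1) ∧ ∃ β : E₀ →ₐ[ℂ] E, (∀ x, β (θ₀ x) = ι ((plV V).r (γ x))) ∧
          Lat N ((jn ((pair η₁.cfg η₂.cfg).red (plV V)) (.inl (m₁ n₁)) (.inr (m₂ n₂))).map ι)
            (Sum.map m₁ m₂) ((gl ξ₁ ξ₂ (m₁' n₁) (m₂' n₂)).map β) (Sum.map m₁' m₂')))

/-- COUNT: descent of a datum to its field of moduli, and the number of moduli -/
def CountStmt : Prop :=
  ∀ {J : Type} [Fintype J] [DecidableEq J] {io : J → Type} [∀ j, Fintype (io j)]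
    [∀ j, DecidableEq (io j)],
    (∀ {d : J → ℕ} {M K : Type} [Fintype M] [Field K] [Algebra ℂ K] (ξ : Dat io d M K)
      (k : IntermediateField ℂ K), ξ.crd ⊆ k → ∃ ζ : Dat io d M k, (ζ.map k.val).Eqv ξ ∧
        (ζ.map k.val).x = ξ.x ∧ (ζ.map k.val).crd = ξ.crd) ∧
    (∀ {d : J → ℕ} {M K : Type} [Fintype M] [Field K] [Algebra ℂ K] (ξ : Dat io d M K), N3 ξ →
      IntermediateField.adjoin ℂ ξ.crd = ⊤ →
      Algebra.EssFiniteType ℂ K ∧ dim ℂ K ≤ mdim io d (Fintype.card M)) ∧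
    ∀ {d₁ d₂ : J → ℕ} {M₁ M₂ K : Type} [Fintype M₁] [Fintype M₂] [Field K] [Algebra ℂ K]
      (ζ₁ : Dat io d₁ M₁ K) (ζ₂ : Dat io d₂ M₂ K) (n₁ : M₁) (n₂ : M₂), N3 ζ₁ → N3 ζ₂ →
      Par (ζ₁.cfg.y n₁) (ζ₂.cfg.y n₂) → IntermediateField.adjoin ℂ (ζ₁.crd ∪ ζ₂.crd) = ⊤ →
      Algebra.EssFiniteType ℂ K ∧
        dim ℂ K + dimP io ≤ mdim io d₁ (Fintype.card M₁) + mdim io d₂ (Fintype.card M₂)

/-- CHART: the product of two universal data is a chart around the universal glued datum -/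
def ChartStmt : Prop :=
  ∀ {J : Type} [Fintype J] [DecidableEq J] {io : J → Type} [∀ j, Fintype (io j)]
    [∀ j, DecidableEq (io j)] {d₁ d₂ : J → ℕ} {M₁ M₂ k : Type} [Fintype M₁] [Fintype M₂] [Field k]
    [Algebra ℂ k] [Algebra.EssFiniteType ℂ k] (ζ₁ : Dat io d₁ M₁ k) (ζ₂ : Dat io d₂ M₂ k) (n₁ : M₁)
    (n₂ : M₂), GUniv ζ₁ ζ₂ n₁ n₂ →
    ∃ (K K₁ K₂ : Type) (_ : Field K) (_ : Algebra ℂ K) (_ : Algebra.EssFiniteType ℂ K)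
      (_ : Field K₁) (_ : Algebra ℂ K₁) (_ : Field K₂) (_ : Algebra ℂ K₂) (γ : k →ₐ[ℂ] K)
      (a₁ : K₁ →ₐ[ℂ] K) (a₂ : K₂ →ₐ[ℂ] K) (i₀ : (j : J) → io j) (u : Vr io → K)
      (ζ₂' : Dat io d₂ M₂ K) (ω₁ : Dat io d₁ M₁ K₁) (ω₂ : Dat io d₂ M₂ K₂),
      (∀ j, ζ₂.cfg.y n₂ j (i₀ j) ≠ 0) ∧ Tv i₀ u (ζ₂.map γ) ζ₂' ∧ ω₁.Univ ∧ ω₂.Univ ∧ Prd a₁ a₂ ∧
      (ζ₁.map γ).Eqv (ω₁.map a₁) ∧ ζ₂'.Eqv (ω₂.map a₂) ∧ dim ℂ K = dim ℂ k + dimP io ∧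
      IntermediateField.adjoin ℂ (Set.range γ ∪ rat (ζ₂'.cfg.y n₂)) = ⊤

/-- generic points do not lie on the target -/
def NotOnStmt : Prop :=
  ∀ {J : Type} [Fintype J] [DecidableEq J] {io : J → Type} [∀ j, Fintype (io j)]
    [∀ j, DecidableEq (io j)] {A : Type} [Fintype A] (T : Tgt io A), (∃ a, T.F a ≠ 0) →
    (∀ {K : Type} [Field K] [Algebra ℂ K] (y : Pnt io K), NZ y → T.On y → 0 < dimP io) ∧
    ∀ {d : J → ℕ} {M K : Type} [Fintype M] [Field K] [Algebra ℂ K] [Algebra.EssFiniteType ℂ K]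
      (ξ : Dat io d M K), ξ.Univ → ∀ q, ¬T.On (ξ.cfg.y q)

/-! ### statements about numbers -/

/-- a common norming refinement does not change the number -/
def LatStmt : Prop :=
  ∀ (B : Th), B.Ax → ∀ {J : Type} [Fintype J] [DecidableEq J] {io : J → Type}
    [∀ j, Fintype (io j)] [∀ j, DecidableEq (io j)] {A : Type} [Fintype A] (T : Tgt io A) (c : ℕ),
    Smo T c → ∃ N₀ : ℕ, ∀ N, N₀ ≤ N → ∀ {I I' M E : Type} [Fintype I] [Fintype I'] [Field E]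
    [Algebra ℂ E] [Algebra.EssFiniteType ℂ E] (z : Cfg io I E) (m : M → I) (z' : Cfg io I' E)
    (m' : M → I') (Φ : MFam B io M) (ω : B.H E), MCls B T Φ → Lat N z m z' m' →
    ful B T z m Φ ω = ful B T z' m' Φ ω

/-- pull-back of the weighted number along a field extension -/
def PbdStmt : Prop :=
  ∀ (B : Th), B.Ax → ∀ {J : Type} [Fintype J] [DecidableEq J] {io : J → Type}
    [∀ j, Fintype (io j)] [∀ j, DecidableEq (io j)] {A : Type} [Fintype A] (T : Tgt io A)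
    {E₀ E : Type} [Field E₀] [Algebra ℂ E₀] [Algebra.EssFiniteType ℂ E₀] [Field E] [Algebra ℂ E]
    [Algebra.EssFiniteType ℂ E] (β : E₀ →ₐ[ℂ] E),
    (∀ {I M : Type} [Fintype I] (z : Cfg io I E₀) (m : M → I) (Φ : MFam B io M) (ω : B.H E₀),
      z.NZ → MCls B T Φ →
      ful B T (z.map β) m Φ (B.pb (LP.hom β) ω) = deg β * ful B T z m Φ ω) ∧
    ∀ (Q : (B.H E₀)[X]) (s : ℕ) (ε : ℂ) (h : BD ℂ E), Q.natDegree ≤ s →
      Q.coeff s = algebraMap ℂ _ ε → s + dim ℂ E₀ ≤ dim ℂ E → ∃ n : ℂ,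
      (s + dim ℂ E₀ < dim ℂ E → n = 0) ∧
      (∀ φ, B.itg E ((Q.map (B.pb (LP.hom β) : B.H E₀ →+* B.H E)).eval (B.c1 h) *
        B.pb (LP.hom β) φ) = n * B.itg E₀ φ) ∧
      ∀ {I M : Type} [Fintype I] (z : Cfg io I E₀) (m : M → I) (Φ : MFam B io M),
        z.NZ → MCls B T Φ →
        ful B T (z.map β) m Φ ((Q.map (B.pb (LP.hom β) : B.H E₀ →+* B.H E)).eval (B.c1 h)) =
          n * ful B T z m Φ 1

/-- NODE (owner 22): the two filtrations of the obstruction space `EE` -/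
def NodeStmt : Prop :=
  ∀ (B : Th), B.Ax → ∀ {J : Type} [Fintype J] [DecidableEq J] {io : J → Type}
    [∀ j, Fintype (io j)] [∀ j, DecidableEq (io j)] {A : Type} [Fintype A] (T : Tgt io A) (c : ℕ),
    Smo T c → ∀ d₁ d₂ : J → ℕ, ∃ N : ℕ, ∀ {I₁ I₂ M L : Type} [Fintype I₁] [Fintype I₂] [Field L]
    [Algebra ℂ L] [Algebra.EssFiniteType ℂ L] (η₁ : Dat io d₁ I₁ L) (η₂ : Dat io d₂ I₂ L)
    (q₁ : I₁) (q₂ : I₂) (m : M → I₁ ⊕ I₂) (Φ : MFam B io M), MCls B T Φ → η₁.NrmUp N →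
    η₂.NrmUp N → ¬(pair η₁.cfg η₂.cfg).On T → ¬Par (η₁.cfg.y q₁) (η₂.cfg.y q₂) →
    vrd B T (pair η₁.cfg η₂.cfg) m Φ (.inl q₁) (.inr q₂) =
      ∑ᶠ (V : RZ ℂ L) (_ : Dvs V), od V (dh (η₁.cfg.y q₁) (η₂.cfg.y q₂)) *
        ful B T (jn ((pair η₁.cfg η₂.cfg).red (plV V)) (.inl q₁) (.inr q₂)) m Φ
          (om B (η₁.cfg.y q₁) (η₂.cfg.y q₂) V)

/-- PROD + DIAG -/
def ProdStmt : Prop :=
  ∀ (B : Th), B.Ax → ∀ {J : Type} [Fintype J] [DecidableEq J] {io : J → Type}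
    [∀ j, Fintype (io j)] [∀ j, DecidableEq (io j)] {A : Type} [Fintype A] (T : Tgt io A) (c : ℕ),
    Smo T c → ∀ {ι : Type} [Fintype ι] (e e' : ι → Fam B io), (∀ l, Cls B T (e l)) →
    (∀ l, Cls B T (e' l)) → Diag B T e e' → ∀ d₁ d₂ : J → ℕ, ∃ N : ℕ,
    ∀ {I₁ I₂ M₁ M₂ L₁ L₂ L : Type} [Fintype I₁] [Fintype I₂] [Field L₁] [Algebra ℂ L₁]
    [Algebra.EssFiniteType ℂ L₁] [Field L₂] [Algebra ℂ L₂] [Algebra.EssFiniteType ℂ L₂] [Field L]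
    [Algebra ℂ L] [Algebra.EssFiniteType ℂ L] (α₁ : L₁ →ₐ[ℂ] L) (α₂ : L₂ →ₐ[ℂ] L), Prd α₁ α₂ →
    ∀ (η₁ : Dat io d₁ I₁ L₁) (η₂ : Dat io d₂ I₂ L₂) (m₁ : M₁ → I₁) (m₂ : M₂ → I₂) (n₁ : M₁)
    (n₂ : M₂) (Φ₁ : MFam B io M₁) (Φ₂ : MFam B io M₂), MCls B T Φ₁ → MCls B T Φ₂ → η₁.NrmUp N →
    η₂.NrmUp N → ¬η₁.cfg.On T → ¬η₂.cfg.On T →
    vrd B T (pair (η₁.map α₁).cfg (η₂.map α₂).cfg) (Sum.map m₁ m₂) (ten Φ₁ Φ₂) (.inl (m₁ n₁))
        (.inr (m₂ n₂)) =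
      ∑ l, vir B T η₁.cfg m₁ (ins Φ₁ n₁ (e l)) * vir B T η₂.cfg m₂ (ins Φ₂ n₂ (e' l))

open Classical in
/-- ORD: the excess number of a point of the ambient space is one -/
def OrdStmt : Prop :=
  ∀ (B : Th), B.Ax → ∀ {J : Type} [Fintype J] [DecidableEq J] {io : J → Type}
    [∀ j, Fintype (io j)] [∀ j, DecidableEq (io j)] {k K : Type} [Field k] [Algebra ℂ k]
    [Algebra.EssFiniteType ℂ k] [Field K] [Algebra ℂ K] [Algebra.EssFiniteType ℂ K]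
    (γ : k →ₐ[ℂ] K) (y : Pnt io k) (y' : Pnt io K), NZ y → NZ y' → 0 < dimP io →
    dim ℂ K = dim ℂ k + dimP io → IntermediateField.adjoin ℂ (Set.range γ ∪ rat y') = ⊤ →
    ∀ φ : B.H k, ∑ᶠ (V : RZ ℂ K) (_ : Dvs V), od V (dh (fun j i => γ (y j i)) y') *
      (if ∀ x, γ x ∈ V.1 then B.itg (Rf V) (om B (fun j i => γ (y j i)) y' V *
        B.pb ((LP.hom γ).comp (LP.at V)) φ) else 0) = B.itg k φ

/-- SPLIT: the number of a glued datum -/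
def SplitStmt : Prop :=
  ∀ (B : Th), B.Ax → ∀ {J : Type} [Fintype J] [DecidableEq J] {io : J → Type}
    [∀ j, Fintype (io j)] [∀ j, DecidableEq (io j)] {A : Type} [Fintype A] (T : Tgt io A) (c : ℕ),
    Smo T c → ∀ {ι : Type} [Fintype ι] (e e' : ι → Fam B io), (∀ l, Cls B T (e l)) →
    (∀ l, Cls B T (e' l)) → Diag B T e e' → ∀ d₁ d₂ : J → ℕ, ∃ N : ℕ,
    ∀ {M₁ M₂ k E I₁ I₂ : Type} [Fintype M₁] [Fintype M₂] [Field k] [Algebra ℂ k] [Field E]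
    [Algebra ℂ E] [Algebra.EssFiniteType ℂ E] [Fintype I₁] [Fintype I₂] (ζ₁ : Dat io d₁ M₁ k)
    (ζ₂ : Dat io d₂ M₂ k) (n₁ : M₁) (n₂ : M₂), GUniv ζ₁ ζ₂ n₁ n₂ →
    ∀ (θ : k →ₐ[ℂ] E) (ξ₁ : Dat io d₁ I₁ E) (ξ₂ : Dat io d₂ I₂ E) (m₁ : M₁ → I₁) (m₂ : M₂ → I₂),
    0 < deg θ → (ζ₁.map θ).Eqv (ξ₁.res m₁) → (ζ₂.map θ).Eqv (ξ₂.res m₂) → ξ₁.NrmUp N →
    ξ₂.NrmUp N → ∀ (Φ₁ : MFam B io M₁) (Φ₂ : MFam B io M₂), MCls B T Φ₁ → MCls B T Φ₂ →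
    ful B T (gl ξ₁ ξ₂ (m₁ n₁) (m₂ n₂)) (Sum.map m₁ m₂) (ten Φ₁ Φ₂) 1 =
      deg θ * ∑ l, GW B T d₁ (ins Φ₁ n₁ (e l)) * GW B T d₂ (ins Φ₂ n₂ (e' l))

end Crest.Agent.X262.Wd54
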