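import Crest.Agent.X262.Wd54.Defs
import Crest.Agent.X262.Vb.Bas1
import Crest.Agent.X262.Hb.Sat2
import Crest.Agent.X262.Node22.Gau

/-!
# Row 262, road B, WDVV (helper54): a common norming refinement does not change the number
-/

set_option autoImplicit false
set_option linter.unusedSectionVars false

noncomputable section

namespace Crest.Agent.X262.Wd54

open Crest.Agent.X277 Crest.Agent.X277.BD Crest.Agent.X277.Pst Crest.Agent.X277.BD.Cyc Polynomial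
open Crest.Agent.X262.Geo (od od_eq_zero essFT_Rf)
open Crest.Agent.X262.Hb Crest.Agent.X262.Vb
open Crest.Agent.X262.Node22 (Par scl chr chr_ne mem_Eb mem_Vt)

variable {J : Type} [Fintype J] [DecidableEq J] {io : J → Type} [∀ j, Fintype (io j)]
  [∀ j, DecidableEq (io j)] {A : Type} [Fintype A] {I I' I'' M : Type} [Fintype I] [Fintype I']
  [Fintype I''] {E L : Type} [Field E] [Algebra ℂ E] [Field L] [Algebra ℂ L] {N : ℕ}

theorem Mul.cfg {z : Cfg io I E} (h : Mul z) : z.Mul :=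
  ⟨h.one, h.crd, fun κ κ' u u' hu hu' => h.mul κ κ' u hu u' hu'⟩

theorem Mul.of_cfg {z : Cfg io I E} (h : z.Mul) : Mul z :=
  ⟨h.one, h.crd, fun κ κ' u hu u' hu' => h.mul κ κ' u u' hu hu'⟩

theorem par_rp {y y' : Pnt io E} (h : Par y y') (h' : NZ y') (p : Pl ℂ E ℂ L) :
    Par (rp p y) (rp p y') := by
  obtain ⟨c, hc, rfl⟩ := h
  let z : Cfg io Unit E := ⟨fun _ => y', fun _ => ⊤⟩
  obtain ⟨c', hc', e⟩ := (Cfg.geq_gau z (c := fun _ => c) fun _ => hc).red (fun _ => h') p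
  exact ⟨c' (), hc' (), congrArg (fun w : Cfg io Unit L => w.y ()) e⟩

theorem nz_rp {y : Pnt io E} (h : NZ y) (p : Pl ℂ E ℂ L) : NZ (rp p y) :=
  Cfg.NZ.red (z := (⟨fun _ => y, fun _ => ⊤⟩ : Cfg io Unit E)) (fun _ => h) p ()

section NP

variable {w : Cfg io I' E} {g : I → I'}

theorem NP.nm_le (h : NP N w g) {κ : J → ℕ} (hκ : ∀ j, κ j ≤ N) {σ : I' → E} (hσ : σ ∈ w.V κ)
    (W : RZ ℂ E) : nm (fun q => lw κ (w.y q)) W σ ≤
      nm (fun q => lw κ (w.y (g q))) W fun q => σ (g q) :=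
  Hb.nm_le.2 (h κ hκ σ hσ W _ (le_nm (fun q => lw κ (w.y (g q))) W fun q => σ (g q)))

theorem np_of_nm (h : ∀ κ : J → ℕ, (∀ j, κ j ≤ N) → ∀ σ ∈ w.V κ, ∀ W : RZ ℂ E,
    nm (fun q => lw κ (w.y q)) W σ ≤ nm (fun q => lw κ (w.y (g q))) W fun q => σ (g q)) :
    NP N w g := fun κ hκ σ hσ W _ hγ =>
  Hb.nm_le.1 ((h κ hκ σ hσ W).trans (Hb.nm_le.2 hγ))

theorem NP.gau (h : NP N w g) (hw : w.NZ) {c : I' → J → E} (hc : ∀ q j, c q j ≠ 0) :
    NP N (w.gau c) g := by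
  rintro κ hκ _ ⟨σ, hσ, rfl⟩ W γ h1 q
  have key : ∀ q, W.v (chr (c q) κ * σ q) ≤ γ * (lw κ ((w.gau c).y q)).val W ↔
      W.v (σ q) ≤ γ * (lw κ (w.y q)).val W := fun q => by
    rw [Cfg.gau_y, lw_scl (hw q) (hc q), val_add, val_pr (chr_ne (hc q) κ), map_mul,
      mul_comm (W.v (chr _ _)), ← mul_assoc, mul_le_mul_iff_left₀ (RZ.pos (chr_ne (hc q) κ))]
  exact (key q).2 (h κ hκ σ hσ W γ (fun q => (key _).1 (h1 q)) q)

theorem NP.red0 (h : NP N w g) {V : RZ ℂ E} (hw : w.Pr V) : NP N (w.red0 (plV V)) g := by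
  refine np_of_nm fun κ hκ σ hσ Z => ?_
  obtain ⟨u, hu, hi, rfl⟩ := exists_of_mem_redS (surj_plV V) hσ
  have ha : ∀ q, (lw κ (w.y q)).val (LP.at V).V = 1 := fun q => (hw q).val_lw κ
  have e : ∀ q, lw κ ((w.red0 (plV V)).y q) = (LP.at V).res (lw κ (w.y q)) :=
    fun q => lw_red (p := plV V) (hw q) κ
  simp only [e]
  change nm _ Z (rv (LP.at V) u) ≤ nm _ Z (rv (LP.at V) fun q => u (g q))
  by_cases h0 : (rv (LP.at V) fun q => u (g q)) = 0
  · have h1 := (rv_eq_zero (a := fun q => lw κ (w.y (g q))) (fun q => ha (g q))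
      fun q => hi (g q)).1 h0
    rw [(rv_eq_zero ha hi).2 ((h.nm_le hκ hu _).trans_lt h1), nm_zero]
    exact zero_le
  · obtain ⟨c, hc⟩ := ((LP.at V).cm Z).1.valuation_surjective
      (nm (fun q => lw κ (w.y (g q))) ((LP.at V).cm Z) fun q => u (g q))
    obtain ⟨h1, h2⟩ := nm_red (a := fun q => lw κ (w.y (g q))) (fun q => ha (g q))
      (fun q => hi (g q)) h0 (Z := Z) (c := c) hc
    rw [h2, nm_red_le ha hi h1]
    exact (h.nm_le hκ hu _).trans hc.ge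

theorem NP.red (h : NP N w g) (hw : w.NZ) (V : RZ ℂ E) : NP N (w.red (plV V)) g :=
  (h.gau hw (Cfg.nrm_ne _ w)).red0 (Cfg.pr_nrm hw V)

theorem NP.red0_V (h : NP N w g) (p : Pl ℂ E ℂ L) (hw : w.Pr p.V) {κ : J → ℕ}
    (hκ : ∀ j, κ j ≤ N) : ((w.res g).red0 p).V κ = ((w.red0 p).res g).V κ := by
  refine le_antisymm (redS_le ?_) (Submodule.map_le_iff_le_comap.2 (redS_le fun u hu hi => ?_))
  · rintro _ ⟨u, hu, rfl⟩ hi
    refine ⟨_, mem_redS p hu fun q => RZ.le_one_iff.1 ?_, rfl⟩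
    have := h κ hκ u hu p.V 1 (fun q => by
      rw [(hw _).val_lw, mul_one]; exact RZ.le_one_iff.2 (hi q)) q
    rwa [(hw _).val_lw, mul_one] at this
  · exact mem_redS p (U := (w.res g).V κ) ⟨u, hu, rfl⟩ fun q => hi (g q)

theorem NP.red_V (h : NP N w g) (hw : w.NZ) (p : Pl ℂ E ℂ L) {κ : J → ℕ} (hκ : ∀ j, κ j ≤ N) :
    ((w.res g).red p).V κ = ((w.red p).res g).V κ := by
  rw [Cfg.red, Cfg.red, ← (h.gau hw (Cfg.nrm_ne _ w)).red0_V p (Cfg.pr_nrm hw _) hκ, Cfg.res_gau]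
  rfl

variable {T : Tgt io A}

theorem NP.nm_eq (h : NP N w g) (hk : ∀ a j, T.k a j ≤ N) {σ : A × I' → E} (hσ : σ ∈ w.Vt T)
    (W : RZ ℂ E) : nm ((w.res g).ea T) W (LinearMap.funLeft E E (Prod.map id g) σ) =
      nm (w.ea T) W σ :=
  le_antisymm (nm_funLeft_le (a := w.ea T) (Prod.map id g) σ) (Hb.nm_le.2 fun x =>
    h _ (hk x.1) _ (mem_Vt.1 hσ x.1) W _ (fun q => le_nm ((w.res g).ea T) W _ (x.1, q)) x.2)

theorem NP.on (h : NP N w g) (hk : ∀ a j, T.k a j ≤ N) (hM : Mul w) :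
    (w.res g).On T ↔ w.On T := by
  rw [Cfg.on_iff, Cfg.on_iff, ← nm_eq_zero (a := (w.res g).ea T) (V := RZ.top ℂ E),
    ← nm_eq_zero (a := w.ea T) (V := RZ.top ℂ E), ← h.nm_eq hk (hM.cfg.sv_mem T)]
  rfl

theorem NP.dv (h : NP N w g) (hk : ∀ a j, T.k a j ≤ N) (hM : Mul w) :
    (w.res g).dv T = w.dv T := by
  by_cases h0 : w.On T
  · rw [Cfg.dv_of_on T h0, Cfg.dv_of_on T ((h.on hk hM).2 h0)]
  · refine ext' fun W => ?_
    rw [Cfg.val_dv T h0, Cfg.val_dv T ((h.on hk hM).not.2 h0), ← h.nm_eq hk (hM.cfg.sv_mem T)]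
    rfl

theorem NP.Eb (h : NP N w g) (hM : Mul w) (S : Syz T) (he : ∀ b j, S.e b j ≤ N) {c : ℕ}
    (hO : w.On T) (hR : ∀ q, S.Reg c (w.y q)) :
    (w.Eb T).map (LinearMap.funLeft E E (Prod.map id g)) = (w.res g).Eb T := by
  refine le_antisymm ?_ fun σ hσ => ?_
  · rintro _ ⟨σ, hσ, rfl⟩
    obtain ⟨h1, h2⟩ := mem_Eb.1 hσ
    exact mem_Eb.2 ⟨fun a => ⟨_, h1 a, rfl⟩, fun q => h2 (g q)⟩
  · obtain ⟨h1, h2⟩ := mem_Eb.1 hσ
    choose u hu hu' using h1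
    have h3 : (fun x : A × I' => u x.1 x.2) ∈ w.Vt T := mem_Vt.2 hu
    have h4 : ∀ a q, u a (g q) = σ (a, q) := fun a q => congrFun (hu' a) q
    refine ⟨fun x => u x.1 x.2, mem_Eb.2 ⟨hu, fun q => (hR q).2 _ fun b => ?_⟩,
      funext fun x => h4 x.1 x.2⟩
    have h5 := h _ (he b) _ (hM.cfg.rho_mem S h3 b) (RZ.top ℂ E) 0 (fun q => by
      simp only [h4]
      rw [S.rho_Nm (hO (g q)) (h2 q) b, map_zero, zero_mul]) q
    simpa using h5

end NP

variable (B : Th) (T : Tgt io A)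

/-- the Chern polynomial of the obstruction space -/
abbrev cE (z : Cfg io I E) : (B.H E)[X] := B.cp (z.ea T) (z.Eb T)

/-- configurations with the same virtual data -/
structure Sim (z : Cfg io I E) (z' : Cfg io I' E) : Prop where
  nz : z.NZ
  nz' : z'.NZ
  on : z.On T ↔ z'.On T
  dv : z.dv T = z'.dv T
  cp0 : z.On T → cE B T z = cE B T z'
  cp : ∀ W, Dvs W → (z.red (plV W)).On T → cE B T (z.red (plV W)) = cE B T (z'.red (plV W))

variable {B T} {z : Cfg io I E} {z' : Cfg io I' E} {z'' : Cfg io I'' E}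

theorem Sim.on_red (h : Sim B T z z') (W : RZ ℂ E) :
    (z.red (plV W)).On T ↔ (z'.red (plV W)).On T := by
  by_cases h0 : z.On T
  · exact iff_of_true (h0.red T (lnr_plV W) h.nz) ((h.on.1 h0).red T (lnr_plV W) h.nz')
  · rw [Cfg.on_red_iff T (lnr_plV W) h.nz h0, Cfg.on_red_iff T (lnr_plV W) h.nz' (h.on.not.1 h0),
      h.dv]

theorem Sim.symm (h : Sim B T z z') : Sim B T z' z :=
  ⟨h.nz', h.nz, h.on.symm, h.dv.symm, fun h0 => (h.cp0 (h.on.2 h0)).symm,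
    fun W hW h0 => (h.cp W hW ((h.on_red W).2 h0)).symm⟩

theorem Sim.trans (h : Sim B T z z') (h' : Sim B T z' z'') : Sim B T z z'' :=
  ⟨h.nz, h'.nz', h.on.trans h'.on, h.dv.trans h'.dv,
    fun h0 => (h.cp0 h0).trans (h'.cp0 (h.on.1 h0)),
    fun W hW h0 => (h.cp W hW h0).trans (h'.cp W hW ((h.on_red W).1 h0))⟩

theorem cE_congr {z z' : Cfg io I E} (hk : ∀ a j, T.k a j ≤ N) (hy : z'.y = z.y)
    (hV : ∀ κ : J → ℕ, (∀ j, κ j ≤ N) → z'.V κ = z.V κ) : cE B T z' = cE B T z := by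
  have h1 : z'.Eb T = z.Eb T := by
    ext σ
    simp only [mem_Eb, hy, fun a => hV _ (hk a)]
  have h2 : z'.ea T = z.ea T := by unfold Cfg.ea; rw [hy]
  rw [cE, h1, h2]

variable (hB : B.Ax) [Algebra.EssFiniteType ℂ E]
include hB

theorem cE_geq {z z' : Cfg io I E} (h : Cfg.Geq z z') (hz : z.NZ) : cE B T z' = cE B T z := by
  obtain ⟨c, hc, rfl⟩ := h
  rw [cE, Cfg.Eb_gau T hc]
  exact hB.cp_dia (a := z.ea T) (c := fun x : A × I => chr (c x.2) (T.k x.1))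
    (fun x => chr_ne (hc x.2) _) (fun x => congrFun (Cfg.ea_gau T hz hc) x) (z.Eb T)

theorem sim_of_geq {z z' : Cfg io I E} (h : Cfg.Geq z z') (hz : z.NZ) : Sim B T z z' :=
  ⟨hz, h.nz hz, (h.on T).symm, (h.dv T hz).symm, fun _ => (cE_geq hB h hz).symm, fun W hW _ => by
    have := essFT_Rf hW
    exact (cE_geq hB (h.red hz _) (hz.red _)).symm⟩

theorem sim_of_geqN {z z' : Cfg io I E} (hk : ∀ a j, T.k a j ≤ N) (h : GeqN N z z') (hz : z.NZ) :
    Sim B T z z' := by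
  obtain ⟨c, hc, hy, hV⟩ := h
  refine (sim_of_geq hB (Cfg.geq_gau z hc) hz).trans ?_
  have h1 := hz.gau hc
  generalize z.gau c = w at hy hV h1
  obtain ⟨y, U⟩ := w
  obtain ⟨y', U'⟩ := z'
  obtain rfl : y' = y := hy
  exact ⟨h1, h1, Iff.rfl, rfl, fun _ => (cE_congr (z := ⟨y', U⟩) (z' := ⟨y', U'⟩) hk rfl hV).symm,
    fun W _ _ =>
    (cE_congr (z := Cfg.red (plV W) ⟨y', U⟩) (z' := Cfg.red (plV W) ⟨y', U'⟩) hk rfl
      fun κ hκ => congrArg (fun U => redS _ (sclS _ U)) (hV κ hκ)).symm⟩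

theorem NP.cE {w : Cfg io I' E} {g : I → I'} (h : NP N w g) (hk : ∀ a j, T.k a j ≤ N) (hM : Mul w)
    (S : Syz T) (he : ∀ b j, S.e b j ≤ N) {c : ℕ} (hO : w.On T) (hR : ∀ q, S.Reg c (w.y q)) :
    cE B T (w.res g) = cE B T w := by
  rw [Wd54.cE, ← h.Eb hM S he hO hR]
  exact hB.cp_iso fun W σ hσ => h.nm_eq hk hσ.1 W

theorem sim_of_np {w : Cfg io I' E} {g : I → I'} (h : NP N w g) (hk : ∀ a j, T.k a j ≤ N)
    (hw : w.NZ) (hM : Mul w) (S : Syz T) (he : ∀ b j, S.e b j ≤ N) {c : ℕ}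
    (hR : ∀ (E : Type) [Field E] [Algebra ℂ E] (y : Pnt io E), NZ y → T.On y → S.Reg c y) :
    Sim B T w (w.res g) :=
  ⟨hw, hw.res g, (h.on hk hM).symm, (h.dv hk hM).symm,
    fun hO => (h.cE hB hk hM S he hO fun q => hR _ _ (hw q) (hO q)).symm, fun W hW hO => by
      have := essFT_Rf hW
      rw [cE_congr (z := (w.red (plV W)).res g) (z' := (w.res g).red (plV W)) hk rfl
        fun κ hκ => h.red_V hw _ hκ]
      exact ((h.red hw W).cE hB hk (.of_cfg (hM.cfg.red hw _)) S he hO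
        fun q => hR _ _ (hw.red _ q) (hO q)).symm⟩

omit hB in
theorem mcls_par {Φ : MFam B io M} (hΦ : MCls B T Φ) {y y' : M → Pnt io E}
    (h : ∀ q, Par (y q) (y' q)) (h' : ∀ q, NZ (y' q)) (hO : ∀ q, T.On (y' q)) :
    Φ E y = Φ E y' := by
  choose c hc e using h
  rw [funext e]
  exact hΦ.scl E y' c hc h' hO

omit hB in
theorem Sim.ful (h : Sim B T z z') {m : M → I} {m' : M → I'}
    (hP : ∀ q, Par (z.y (m q)) (z'.y (m' q))) {Φ : MFam B io M} (hΦ : MCls B T Φ) (ω : B.H E) :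
    ful B T z m Φ ω = ful B T z' m' Φ ω := by
  unfold Wd54.ful
  by_cases h0 : z.On T
  · rw [if_pos h0, if_pos (h.on.1 h0), mcls_par hΦ hP (fun q => h.nz' _) fun q => h.on.1 h0 _]
    exact congrArg (fun f : (B.H E)[X] => B.itg E (ω * (f.eval 0 * _))) (h.cp0 h0)
  · rw [if_neg h0, if_neg (h.on.not.1 h0)]
    refine finsum_congr fun W => finsum_congr fun hW => ?_
    rw [← h.dv]
    by_cases h1 : od W (z.dv T) = 0
    · rw [h1, Int.cast_zero, zero_mul, zero_mul]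
    have := essFT_Rf hW
    have h2 := Cfg.on_red_of T (lnr_plV W) h.nz ((od_eq_zero hW).not.1 h1)
    rw [trm, trm, exc, exc, Th.cq, Th.cq, ← h.dv,
      mcls_par hΦ (y := fun q => (z.red (plV W)).y (m q)) (y' := fun q => (z'.red (plV W)).y (m' q))
        (fun q => par_rp (hP q) (h.nz' _) _) (fun q => h.nz'.red _ _)
        fun q => (h.on_red W).1 h2 _]
    exact congrArg (fun f : (B.H (Rf W))[X] =>
      (od W (z.dv T) : ℂ) * B.itg _ (_ * ((-f.divX).eval _ * _))) (h.cp W hW h2)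

omit hB [Algebra.EssFiniteType ℂ E] in
theorem Lat.nz {m : M → I} {m' : M → I'} (h : Lat N z m z' m') : z.NZ ∧ z'.NZ := by
  obtain ⟨_, _, w, g, g', hw, -, -, -, ⟨c, hc, hy, -⟩, ⟨c', hc', hy', -⟩, -⟩ := h
  exact ⟨fun q => hy ▸ (hw.res g).gau hc q, fun q => hy' ▸ (hw.res g').gau hc' q⟩

omit hB [Algebra.EssFiniteType ℂ E] in
theorem Lat.par {m : M → I} {m' : M → I'} (h : Lat N z m z' m') (q : M) :
    Par (z.y (m q)) (z'.y (m' q)) := by
  obtain ⟨_, _, w, g, g', -, -, -, -, -, -, h⟩ := h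
  exact h q

omit hB [Algebra.EssFiniteType ℂ E] in
theorem exists_bound {ι : Type} [Fintype ι] (f : ι → J → ℕ) : ∃ N, ∀ a j, f a j ≤ N :=
  ⟨Finset.univ.sup fun x : ι × J => f x.1 x.2, fun a j =>
    Finset.le_sup (f := fun x : ι × J => f x.1 x.2) (Finset.mem_univ (a, j))⟩

omit hB [Algebra.EssFiniteType ℂ E] in
/-- **a common norming refinement does not change the number** -/
theorem latStmt : LatStmt := by
  intro B hB J _ _ io _ _ A _ T c ⟨_, S, hS⟩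
  obtain ⟨N₁, h1⟩ := exists_bound T.k
  obtain ⟨N₂, h2⟩ := exists_bound S.e
  refine ⟨max N₁ N₂, fun N hN I I' M E _ _ _ _ _ z m z' m' Φ ω hΦ h => ?_⟩
  have hk : ∀ a j, T.k a j ≤ N := fun a j => (h1 a j).trans ((le_max_left _ _).trans hN)
  have he : ∀ b j, S.e b j ≤ N := fun a j => (h2 a j).trans ((le_max_right _ _).trans hN)
  obtain ⟨_, _, w, g, g', hw, hM, n1, n2, e1, e2, hP⟩ := h
  exact (((sim_of_np hB n1 hk hw hM S he hS).trans (sim_of_geqN hB hk e1 (hw.res g))).symm.trans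
    ((sim_of_np hB n2 hk hw hM S he hS).trans (sim_of_geqN hB hk e2 (hw.res g')))).ful hP hΦ ω

end Crest.Agent.X262.Wd54
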