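import Crest.Agent.X262.Wd54.Om
import Crest.Agent.X262.Vb37.Univ
import Crest.Agent.X262.Vb10.Gw
import Crest.Agent.X262.Wd54.Gx

/-!
# Row 262, road B, WDVV (helper54): the splitting formula from its pieces
-/

set_option autoImplicit false
set_option linter.unusedSectionVars false

noncomputable section

namespace Crest.Agent.X262.Wd54

open Crest.Agent.X277 Crest.Agent.X277.BD Crest.Agent.X277.Pst Crest.Agent.X277.BD.Cyc Polynomial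
open Crest.Agent.X262.Geo (od od_eq_zero essFT_Rf dim_Rf')
open Crest.Agent.X262.Hb Crest.Agent.X262.Vb
open Crest.Agent.X262.Node22 (Par scl chr dimP pair jn)
open Crest.Agent.X262.Val40 (dn rf finsum_pull)
open Crest.Agent.X262.Vb37 (eqv_map eqv_refl eqv_symm eqv_trans nrmUp_map nrmUp_mono dmap_map)
open Crest.Agent.X262.Sym65 (sm)

/-- amalgamation of finite extensions of the two factors of a product -/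
def Am2Stmt : Prop :=
  ∀ {K₁ K₂ K L₁ L₂ : Type} [Field K₁] [Algebra ℂ K₁] [Field K₂] [Algebra ℂ K₂] [Field K]
    [Algebra ℂ K] [Algebra.EssFiniteType ℂ K] [Field L₁] [Algebra ℂ L₁] [Field L₂] [Algebra ℂ L₂]
    (a₁ : K₁ →ₐ[ℂ] K) (a₂ : K₂ →ₐ[ℂ] K), Prd a₁ a₂ → ∀ (θ₁ : K₁ →ₐ[ℂ] L₁) (θ₂ : K₂ →ₐ[ℂ] L₂),
    0 < deg θ₁ → 0 < deg θ₂ → ∃ (L : Type) (_ : Field L) (_ : Algebra ℂ L)
      (_ : Algebra.EssFiniteType ℂ L) (α₁ : L₁ →ₐ[ℂ] L) (α₂ : L₂ →ₐ[ℂ] L) (θ : K →ₐ[ℂ] L),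
      Prd α₁ α₂ ∧ α₁.comp θ₁ = θ.comp a₁ ∧ α₂.comp θ₂ = θ.comp a₂ ∧ deg θ = deg θ₁ * deg θ₂

variable {J : Type} [Fintype J] [DecidableEq J] {io : J → Type} [∀ j, Fintype (io j)]
  [∀ j, DecidableEq (io j)] {A : Type} [Fintype A] {I I' I₁ I₂ M M₁ M₂ : Type} [Fintype I]
  [Fintype I'] [Fintype I₁] [Fintype I₂] {K E L : Type} [Field K] [Algebra ℂ K] [Field E]
  [Algebra ℂ E] [Field L] [Algebra ℂ L] {B : Th} {T : Tgt io A} {d d₁ d₂ : J → ℕ}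

theorem nz_cfg (ξ : Dat io d I K) : ξ.cfg.NZ := fun _ => Vb37.nz_pt ξ _

theorem nz_pair {z₁ : Cfg io I₁ K} {z₂ : Cfg io I₂ K} (h₁ : z₁.NZ) (h₂ : z₂.NZ) :
    (pair z₁ z₂).NZ
  | .inl q => h₁ q
  | .inr q => h₂ q

theorem nz_gl (ξ₁ : Dat io d₁ I₁ K) (ξ₂ : Dat io d₂ I₂ K) (q₁ : I₁) (q₂ : I₂) :
    (gl ξ₁ ξ₂ q₁ q₂).NZ := nz_pair (nz_cfg ξ₁) (nz_cfg ξ₂)

theorem mcls_ten {Φ₁ : MFam B io M₁} {Φ₂ : MFam B io M₂} (h₁ : MCls B T Φ₁) (h₂ : MCls B T Φ₂) :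
    MCls B T (ten Φ₁ Φ₂) := (h₁.comp Sum.inl).mul (h₂.comp Sum.inr)

theorem mcls_ins {Φ : MFam B io M} (h : MCls B T Φ) (n : M) {e : Fam B io} (he : Cls B T e) :
    MCls B T (ins Φ n e) := h.mul (he.at n)

theorem Tv.map {i₀ : (j : J) → io j} {u : Vr io → K} {ξ ξ' : Dat io d M K} (h : Tv i₀ u ξ ξ')
    (θ : K →ₐ[ℂ] L) : Tv i₀ (fun v => θ (u v)) (ξ.map θ) (ξ'.map θ) :=
  ⟨fun j => (congrArg θ (h.1 j)).trans (map_zero θ), funext fun q => congrArg (Option.map θ) (congrFun h.2.1 q),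
    fun j i => by simp [Dat.map, h.2.2]⟩

theorem cfg_map_y (α : K →ₐ[ℂ] L) (ξ : Dat io d M K) (q : M) :
    (ξ.map α).cfg.y q = mapP α (ξ.cfg.y q) :=
  funext fun j => funext fun i => Vb37.dmap_pt α ξ _ j i

theorem ful_eq_vir {z : Cfg io I E} (h : ¬z.On T) (m : M → I) (Φ : MFam B io M) :
    ful B T z m Φ 1 = vir B T z m Φ := by
  simp only [ful, if_neg h, map_one, one_mul, vir]

/-- without points on the target all numbers vanish -/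
theorem vir_empty [Algebra.EssFiniteType ℂ E] (h : ∀ {K : Type} [Field K] [Algebra ℂ K]
    (y : Pnt io K), NZ y → ¬T.On y) {z : Cfg io I E} (hz : z.NZ) (q : I) (m : M → I)
    (Φ : MFam B io M) : vir B T z m Φ = 0 :=
  vir_eq_zero fun _ _ h1 => (h _ (hz.red _ q) (on_at hz h1 q)).elim

open Classical in
/-- the contribution of one component of the diagonal -/
theorem term_eq (hB : B.Ax) (hP : PbdStmt) (hC : Class2Stmt) (h0 : 0 < dimP io) {N : ℕ}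
    (hL : ∀ {I I' M E : Type} [Fintype I] [Fintype I'] [Field E]
      [Algebra ℂ E] [Algebra.EssFiniteType ℂ E] (z : Cfg io I E) (m : M → I) (z' : Cfg io I' E)
      (m' : M → I') (Φ : MFam B io M) (ω : B.H E), MCls B T Φ → Lat N z m z' m' →
      ful B T z m Φ ω = ful B T z' m' Φ ω)
    [Fintype M₁] [Fintype M₂] {k I₁' I₂' : Type} [Field k] [Algebra ℂ k] [Fintype I₁']
    [Fintype I₂'] [Algebra.EssFiniteType ℂ k] [Algebra.EssFiniteType ℂ L]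
    [Algebra.EssFiniteType ℂ E] {ζ₁ : Dat io d₁ M₁ k} {ζ₂ : Dat io d₂ M₂ k} {n₁ : M₁} {n₂ : M₂}
    (hG : GUniv ζ₁ ζ₂ n₁ n₂) {γ : k →ₐ[ℂ] L} (hd : dim ℂ L = dim ℂ k + dimP io)
    {i₀ : (j : J) → io j} {u : Vr io → L} {ζ₂' : Dat io d₂ M₂ L}
    (hi : ∀ j, ζ₂.cfg.y n₂ j (i₀ j) ≠ 0) (hu : Tv i₀ u (ζ₂.map γ) ζ₂') {η₁ : Dat io d₁ I₁ L}
    {η₂ : Dat io d₂ I₂ L} {m₁ : M₁ → I₁} {m₂ : M₂ → I₂} (e₁ : (ζ₁.map γ).Eqv (η₁.res m₁))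
    (e₂ : ζ₂'.Eqv (η₂.res m₂)) (r₁ : η₁.NrmUp N) (r₂ : η₂.NrmUp N) {θ : k →ₐ[ℂ] E}
    {ξ₁ : Dat io d₁ I₁' E} {ξ₂ : Dat io d₂ I₂' E} {m₁' : M₁ → I₁'} {m₂' : M₂ → I₂'}
    (hθ : 0 < deg θ) (f₁ : (ζ₁.map θ).Eqv (ξ₁.res m₁')) (f₂ : (ζ₂.map θ).Eqv (ξ₂.res m₂'))
    (s₁ : ξ₁.NrmUp N) (s₂ : ξ₂.NrmUp N) {Φ : MFam B io (M₁ ⊕ M₂)} (hΦ : MCls B T Φ) (φ : B.H k)
    {V : RZ ℂ L} (hV : Dvs V) (h : (dh (η₁.cfg.y (m₁ n₁)) (η₂.cfg.y (m₂ n₂))).val V ≠ 1) :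
    deg θ * B.itg k φ *
      ful B T (jn ((pair η₁.cfg η₂.cfg).red (plV V)) (.inl (m₁ n₁)) (.inr (m₂ n₂)))
        (Sum.map m₁ m₂) Φ (om B (η₁.cfg.y (m₁ n₁)) (η₂.cfg.y (m₂ n₂)) V) =
      ful B T (gl ξ₁ ξ₂ (m₁' n₁) (m₂' n₂)) (Sum.map m₁' m₂') Φ 1 *
        if ∀ x, γ x ∈ V.1 then B.itg (Rf V) (om B (η₁.cfg.y (m₁ n₁)) (η₂.cfg.y (m₂ n₂)) V *
          B.pb ((LP.hom γ).comp (LP.at V)) φ) else 0 := by
  have := essFT_Rf hV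
  have hp := par_of_dh (nz_cfg η₁ _) (nz_cfg η₂ _) h
  have hw : (jn ((pair η₁.cfg η₂.cfg).red (plV V)) (.inl (m₁ n₁)) (.inr (m₂ n₂))).NZ :=
    (nz_pair (nz_cfg η₁) (nz_cfg η₂)).red _
  obtain ⟨F, _, _, _, ι, hι, H⟩ := hC N ζ₁ ζ₂ n₁ n₂ hG γ i₀ u ζ₂' hi hu η₁ η₂ m₁ m₂ e₁ e₂ r₁ r₂
    θ ξ₁ ξ₂ m₁' m₂' hθ f₁ f₂ s₁ s₂ V hV hp
  have h1 := (deg_pos_iff ι).1 hι
  have h2 := dim_Rf' hV
  have h3 := (deg_pos_iff θ).1 hθ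
  have hι' : (deg ι : ℂ) ≠ 0 := Nat.cast_ne_zero.2 hι.ne'
  rw [om_eq, hB.pb_c1]
  rcases H with ⟨h4, E', I', _, _, _, β, z', m', h5, h6⟩ | ⟨h4, β, h5, h6⟩
  · have := Wd.essFT_of_hom β
    obtain ⟨n, h7, h8, -⟩ := term hB hP h0 (by omega) hw (fun q => (nz_map β).1 (h6.nz.2 q)) hΦ
      h6.par (fun ω => hL _ _ _ _ Φ ω hΦ h6) (a := .inl n₁) (b := .inr n₂) hp
      ((LP.at V).rs (dh (η₁.cfg.y (m₁ n₁)) (η₂.cfg.y (m₂ n₂))))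
    rw [h7 (by omega), zero_mul, mul_eq_zero, or_iff_right hι'] at h8
    rw [if_neg h4, mul_zero]
    exact mul_eq_zero_of_right _ h8
  · obtain ⟨n, -, h8, h9⟩ := term hB hP h0 (by omega) hw (nz_gl _ _ _ _) hΦ
      h6.par (fun ω => hL _ _ _ _ Φ ω hΦ h6) (a := .inl n₁) (b := .inr n₂) hp
      ((LP.at V).rs (dh (η₁.cfg.y (m₁ n₁)) (η₂.cfg.y (m₂ n₂))))
    have h10 := h9 (B.pb (LP.hom θ) φ)
    rw [hB.deg, ← hB.pb_comp, show (LP.hom θ).comp (LP.hom β) =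
      ((LP.hom γ).comp (LP.at V)).comp (LP.hom ι) from LP.ext fun x => by
        simp only [LP.r_comp, LP.r_hom]; exact h5 x, hB.pb_comp, ← map_mul, hB.deg] at h10
    rw [if_pos h4]
    refine mul_left_cancel₀ hι' ?_
    rw [mul_left_comm (deg ι : ℂ), mul_left_comm (deg ι : ℂ)]
    refine (congrArg _ h8).trans (Eq.trans ?_ (congrArg _ h10).symm)
    ring

/-- **SPLIT** -/
theorem split_of (hA : Ax0Stmt) (hE : ExNrm) (hN : NodeStmt) (hPr : ProdStmt) (hO : OrdStmt)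
    (hP : PbdStmt) (hC : Class2Stmt) (hCh : ChartStmt) (hNo : NotOnStmt) (hAm : Am2Stmt) :
    SplitStmt := by
  intro B hB J _ _ io _ _ A _ T c hS ι _ e e' he he' hD d₁ d₂
  classical
  obtain ⟨N₀, hL⟩ := latStmt B hB T c hS
  obtain ⟨N₁, hN⟩ := hN B hB T c hS d₁ d₂
  obtain ⟨N₂, hPr⟩ := hPr B hB T c hS e e' he he' hD d₁ d₂
  refine ⟨N₀, ?_⟩
  intro M₁ M₂ k E I₁ I₂ _ _ _ _ _ _ _ _ _ ζ₁ ζ₂ n₁ n₂ hG θ ξ₁ ξ₂ m₁ m₂ hθ f₁ f₂ s₁ s₂ Φ₁ Φ₂ hΦ₁ hΦ₂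
  have := Wd.essFT_of_hom θ
  obtain ⟨K, K₁, K₂, _, _, _, _, _, _, _, γ, a₁, a₂, i₀, u, ζ₂', ω₁, ω₂, hi, hu, u₁, u₂, ha, e₁, e₂,
    hd, hg⟩ := hCh ζ₁ ζ₂ n₁ n₂ hG
  have := Vb37.univ_essFT u₁
  have := Vb37.univ_essFT u₂
  choose P₁ g₁ using fun l => (hA B hB T c d₁ (hS.good d₁)).gw _ (mcls_ins hΦ₁ n₁ (he l))
  choose P₂ g₂ using fun l => (hA B hB T c d₂ (hS.good d₂)).gw _ (mcls_ins hΦ₂ n₂ (he' l))
  obtain ⟨N, b₀, b₁, b₂, b₃, b₄⟩ : ∃ N, N₀ ≤ N ∧ N₁ ≤ N ∧ N₂ ≤ N ∧ (∀ l, P₁ l ≤ N) ∧ ∀ l, P₂ l ≤ N :=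
    ⟨N₀ + N₁ + N₂ + ∑ l, P₁ l + ∑ l, P₂ l, by omega, by omega, by omega, fun l => by
      have := Finset.single_le_sum (f := P₁) (fun _ _ => Nat.zero_le _) (Finset.mem_univ l)
      omega, fun l => by
      have := Finset.single_le_sum (f := P₂) (fun _ _ => Nat.zero_le _) (Finset.mem_univ l)
      omega⟩
  obtain ⟨L₁, _, _, _, θ₁, p₁, η₁, t₁, q₁, r₁⟩ := hE ω₁ N
  obtain ⟨L₂, _, _, _, θ₂, p₂, η₂, t₂, q₂, r₂⟩ := hE ω₂ N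
  have v₁ := fun l => g₁ l L₁ K₁ _ η₁ Sum.inl θ₁ ⟨ω₁, u₁, q₁ ▸ eqv_refl _⟩ (nrmUp_mono r₁ (b₃ l))
  have v₂ := fun l => g₂ l L₂ K₂ _ η₂ Sum.inl θ₂ ⟨ω₂, u₂, q₂ ▸ eqv_refl _⟩ (nrmUp_mono r₂ (b₄ l))
  have t₁' : (deg θ₁ : ℂ) ≠ 0 := Nat.cast_ne_zero.2 t₁.ne'
  have t₂' : (deg θ₂ : ℂ) ≠ 0 := Nat.cast_ne_zero.2 t₂.ne'
  rcases Nat.eq_zero_or_pos (dimP io) with h0 | h0
  · have h1 : ∀ {K : Type} [Field K] [Algebra ℂ K] (y : Pnt io K), NZ y → ¬T.On y :=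
      fun y hy ho => ((hNo T hS.1).1 y hy ho).ne' h0
    rw [ful_eq_vir fun ho => h1 _ (nz_gl _ _ _ _ _) (ho (.inl (m₁ n₁))),
      vir_empty h1 (nz_gl _ _ _ _) (.inl (m₁ n₁)), Finset.sum_eq_zero, mul_zero]
    intro l _
    rw [(mul_eq_zero.1 ((v₁ l).symm.trans (vir_empty h1 (nz_cfg η₁) (.inl n₁) _ _))).resolve_left
      t₁', zero_mul]
  obtain ⟨L, _, _, _, α₁, α₂, τ, hα, c₁, c₂, hτ⟩ := hAm a₁ a₂ ha θ₁ θ₂ t₁ t₂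
  obtain ⟨φ, hφ⟩ := exists_itg_ne hB k
  have o₁ : ¬T.On (η₁.cfg.y (.inl n₁)) := fun ho => (hNo T hS.1).2 ω₁ u₁ n₁ ((on_map T θ₁).1 (by
    rw [← cfg_map_y, ← q₁]; exact ho))
  have o₂ : ¬T.On (η₂.cfg.y (.inl n₂)) := fun ho => (hNo T hS.1).2 ω₂ u₂ n₂ ((on_map T θ₂).1 (by
    rw [← cfg_map_y, ← q₂]; exact ho))
  have x₁ : (ζ₁.map (τ.comp γ)).Eqv ((η₁.map α₁).res Sum.inl) := by
    rw [← Vb37.dmap_res, q₁, dmap_map, c₁, ← dmap_map, ← dmap_map]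
    exact eqv_map e₁ τ
  have x₂ : (ζ₂'.map τ).Eqv ((η₂.map α₂).res Sum.inl) := by
    rw [← Vb37.dmap_res, q₂, dmap_map, c₂, ← dmap_map]
    exact eqv_map e₂ τ
  have y₁ : Par ((η₁.map α₁).cfg.y (.inl n₁)) (mapP τ (mapP γ (ζ₁.cfg.y n₁))) := by
    have := eqv_par x₁ n₁
    rwa [cfg_map_y (τ.comp γ)] at this
  have y₂ : Par ((η₂.map α₂).cfg.y (.inl n₂)) (mapP τ (ζ₂'.cfg.y n₂)) := by
    have := eqv_par x₂ n₂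
    rwa [cfg_map_y τ] at this
  have z₁ := (nz_map γ).2 (nz_cfg ζ₁ n₁)
  have z₂ := nz_cfg ζ₂' n₂
  have hH := (dh_par y₁ y₂ ((nz_map τ).2 z₁) ((nz_map τ).2 z₂)).trans (dh_map τ _ _)
  have hO' := hO B hB γ (ζ₁.cfg.y n₁) (ζ₂'.cfg.y n₂) (nz_cfg ζ₁ n₁) z₂ h0 hd hg φ
  have hp : ¬Par ((η₁.map α₁).cfg.y (.inl n₁)) ((η₂.map α₂).cfg.y (.inl n₂)) := fun hp => hφ (by
    rw [← hO', show dh (fun j i => γ (ζ₁.cfg.y n₁ j i)) (ζ₂'.cfg.y n₂) = 0 from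
      dh_of_par (par_of_map z₁ z₂ (y₁.symm.trans (hp.trans y₂))) z₂]
    simp)
  have h1 := hPr α₁ α₂ hα η₁ η₂ Sum.inl Sum.inl n₁ n₂ Φ₁ Φ₂ hΦ₁ hΦ₂ (nrmUp_mono r₁ b₂)
    (nrmUp_mono r₂ b₂) (fun h => o₁ (h _)) fun h => o₂ (h _)
  rw [hN _ _ _ _ _ _ (mcls_ten hΦ₁ hΦ₂) (nrmUp_map (nrmUp_mono r₁ b₁) α₁)
    (nrmUp_map (nrmUp_mono r₂ b₁) α₂) (fun h => o₁ ((on_map T α₁).1 (by
      rw [← cfg_map_y]; exact h (.inl (.inl n₁))))) hp] at h1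
  have hτ' : 0 < deg τ := hτ ▸ Nat.mul_pos t₁ t₂
  have h2 := congrArg (fun x => deg θ * B.itg k φ * x) h1
  change _ * sm _ _ = _ at h2
  rw [← sm_smul, sm_congr fun V hV h => term_eq hB hP hC h0 (hL N₀ le_rfl) hG
    (((deg_pos_iff τ).1 hτ').trans hd) hi (by simpa only [dmap_map] using hu.map τ) x₁ x₂
    (nrmUp_map (nrmUp_mono r₁ b₀) α₁) (nrmUp_map (nrmUp_mono r₂ b₀) α₂) hθ f₁ f₂ s₁ s₂
    (mcls_ten hΦ₁ hΦ₂) φ hV h, sm_smul, hH, sm, finsum_pull τ _ _ _ ?_] at h2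
  · erw [hO'] at h2
    simp only [v₁, v₂] at h2
    refine mul_right_cancel₀ (mul_ne_zero (mul_ne_zero t₁' t₂') hφ) ?_
    rw [hτ, Nat.cast_mul] at h2
    rw [h2, Finset.mul_sum, Finset.mul_sum, Finset.sum_mul]
    exact Finset.sum_congr rfl fun l _ => by ring
  · intro V hV hV' h
    have := essFT_Rf hV
    have := essFT_Rf hV'
    by_cases h3 : ∀ x, γ x ∈ (dn τ V).1
    · rw [if_pos h3, if_pos (show ∀ x, τ.comp γ x ∈ V.1 from h3), om_par hB y₁ y₂ ((nz_map τ).2 z₁) ((nz_map τ).2 z₂) hV,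
        om_map hB τ z₁ z₂ hV hV' ((od_eq_zero hV').not.1 h), ← hB.deg,
        map_mul (B.pb (LP.hom (rf τ V))), ← hB.pb_comp]
      congr 3
      exact congrArg B.pb (LP.ext fun x => by
        simp only [LP.r_comp, LP.r_hom]
        exact (Val40.rf_r τ V (γ x)).symm)
    · rw [if_neg h3, if_neg (show ¬∀ x, τ.comp γ x ∈ V.1 from h3), mul_zero]

end Crest.Agent.X262.Wd54
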