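import Crest.Agent.X262.Wd54.Spl
import Crest.Agent.X262.Vb.Ax0
import Crest.Agent.X262.Prod33.Main
import Crest.Agent.X262.Ord20.Main
import Crest.Agent.X262.Pbd43.Main
import Crest.Agent.X262.Cl49.Main
import Crest.Agent.X262.Cnt37.Main
import Crest.Agent.X262.Am12.Main

/-!
# Row 262, road B, WDVV (helper54): the splitting formula from the two-step formula, NODE, CHART
-/

set_option autoImplicit false

namespace Crest.Agent.X262.Wd54

theorem am2Stmt : Am2Stmt := by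
  intro K₁ K₂ K L₁ L₂ _ _ _ _ _ _ _ _ _ _ _ a₁ a₂ h θ₁ θ₂ h₁ h₂
  have := Wd.essFT_of_hom a₁
  have := Wd.essFT_of_hom a₂
  exact Am12.exists_amal2 h θ₁ θ₂ h₁ h₂

theorem splitStmt_of (h2 : Sym65.TwoStmt) (hN : NodeStmt) (hC : ChartStmt) : SplitStmt :=
  split_of Vb.ax0Stmt Vb.exNrm hN (Prod33.prodStmt_of h2) Ord20.ordStmt Pbd43.pbdStmt
    Cl49.class2Stmt hC Cnt37.notOnStmt am2Stmt

end Crest.Agent.X262.Wd54
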