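import Crest.Agent.X262.Wd54.Lat
import Crest.Agent.X262.Vb.Vir
import Crest.Agent.X262.Val40.Pb
import Crest.Agent.X262.Vb37.Mob

/-!
# Row 262, road B, WDVV (helper54): the excess class of the diagonal, one term of the splitting
-/

set_option autoImplicit false
set_option linter.unusedSectionVars false

noncomputable section

namespace Crest.Agent.X262.Wd54

open Crest.Agent.X277 Crest.Agent.X277.BD Crest.Agent.X277.Pst Crest.Agent.X277.BD.Cyc Polynomial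
open Crest.Agent.X262.Geo (od od_eq_zero essFT_Rf dim_Rf')
open Crest.Agent.X262.Hb Crest.Agent.X262.Vb
open Crest.Agent.X262.Node22 (Par scl chr dimP dl da TP gD gD_ne Dg)
open Crest.Agent.X262.Val40 (dn rf)

variable {J : Type} [Fintype J] [DecidableEq J] {io : J → Type} [∀ j, Fintype (io j)]
  [∀ j, DecidableEq (io j)] {A : Type} [Fintype A] {I I' M : Type} [Fintype I] [Fintype I']
  {K E L : Type} [Field K] [Algebra ℂ K] [Field E] [Algebra ℂ E] [Field L] [Algebra ℂ L]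
  {y y' z z' : Pnt io K}

theorem exists_dvs [Algebra.EssFiniteType ℂ K] (h : dim ℂ K ≠ 0) : ∃ V : RZ ℂ K, Dvs V := by
  obtain ⟨M⟩ := (inferInstance : Nonempty (Mdl ℂ K))
  obtain ⟨n, hn⟩ := Nat.exists_eq_succ_of_ne_zero h
  have h1 := M.H_pos
  rw [hn, List.replicate_succ] at h1
  obtain ⟨S, -, h2, -, h3⟩ := Geo.exists_cyc M.H (List.replicate n M.H) ∅ (by simp)
  obtain ⟨V, hV, -⟩ := Finset.exists_ne_zero_of_sum_ne_zero (h3 ▸ h1.ne')
  exact ⟨V, h2 V hV⟩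

theorem one_ne_zero' {B : Th} (hB : B.Ax) (n : ℕ) : ∀ (K : Type) [Field K] [Algebra ℂ K]
    [Algebra.EssFiniteType ℂ K], dim ℂ K = n → (1 : B.H K) ≠ 0 := by
  induction n with
  | zero =>
    intro K _ _ _ h h0
    have := hB.itg_one_of_dim h
    rw [h0, map_zero] at this
    exact zero_ne_one this
  | succ n ih =>
    intro K _ _ _ h h0
    obtain ⟨V, hV⟩ := exists_dvs (K := K) (by omega)
    have := essFT_Rf hV
    have h1 := dim_Rf' hV
    refine ih (Rf V) (by omega) ?_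
    rw [← map_one (B.pb (LP.at V)), h0, map_zero]

theorem exists_itg_ne {B : Th} (hB : B.Ax) (K : Type) [Field K] [Algebra ℂ K]
    [Algebra.EssFiniteType ℂ K] : ∃ φ : B.H K, B.itg K φ ≠ 0 := by
  by_contra h
  push Not at h
  exact one_ne_zero' hB _ K rfl (hB.pd 1 fun _ => h _)

theorem Par.nz (h : Par y y') (h' : NZ y') : NZ y := by
  obtain ⟨c, hc, rfl⟩ := h
  exact Node22.nz_scl h' hc

theorem par_map (h : Par y y') (α : K →ₐ[ℂ] E) : Par (mapP α y) (mapP α y') := by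
  obtain ⟨c, hc, rfl⟩ := h
  exact ⟨fun j => α (c j), fun j => (map_ne_zero α).2 (hc j),
    funext fun j => funext fun i => map_mul α _ _⟩

theorem dl_map (α : K →ₐ[ℂ] E) (y y' : Pnt io K) :
    dl (mapP α y) (mapP α y') = fun x => α (dl y y' x) := by
  funext x
  simp only [dl, Node22.wg_apply, map_sub, map_mul]
  rfl

theorem par_of_map {α : K →ₐ[ℂ] E} (h : NZ y) (h' : NZ y') (hP : Par (mapP α y) (mapP α y')) :
    Par y y' := by
  rw [← Node22.dl_eq_zero ((nz_map α).2 h) ((nz_map α).2 h'), dl_map] at hP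
  exact (Node22.dl_eq_zero h h').1 (funext fun x => (map_eq_zero α).1 (congrFun hP x))

theorem eqv_par {d : J → ℕ} {ξ η : Dat io d I K} (h : ξ.Eqv η) (q : I) :
    Par (η.cfg.y q) (ξ.cfg.y q) := by
  obtain ⟨c, hc, e⟩ := Vb37.eqv_cfg h
  exact ⟨c q, hc q, by rw [e]; rfl⟩

theorem dh_eq (y y' : Pnt io K) : dh y y' = -sz (dl y y') (da y y') := rfl

theorem da_scl (h : NZ y) (h' : NZ y') {c c' : J → K} (hc : ∀ j, c j ≠ 0) (hc' : ∀ j, c' j ≠ 0)
    (x : Dg io) : da (scl c y) (scl c' y') x = da y y' x + pr ℂ (gD c c' x) := by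
  rw [da, da, ln_scl h hc, ln_scl h' hc', gD, pr_mul (hc _) (hc' _)]
  abel

theorem dh_scl (h : NZ y) (h' : NZ y') {c c' : J → K} (hc : ∀ j, c j ≠ 0) (hc' : ∀ j, c' j ≠ 0) :
    dh (scl c y) (scl c' y') = dh y y' := by
  rw [dh_eq, dh_eq, funext (da_scl h h' hc hc'), funext (Node22.dl_scl c c' y y'),
    sz_scl (gD_ne hc hc')]

theorem dh_par (h : Par z y) (h' : Par z' y') (hy : NZ y) (hy' : NZ y') : dh z z' = dh y y' := by
  obtain ⟨c, hc, rfl⟩ := h
  obtain ⟨c', hc', rfl⟩ := h'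
  exact dh_scl hy hy' hc hc'

theorem da_map (α : K →ₐ[ℂ] E) (y y' : Pnt io K) :
    da (mapP α y) (mapP α y') = fun x => pb α (da y y' x) := by
  funext x
  rw [da, da, ln_map, ln_map, map_add]

theorem dh_map (α : K →ₐ[ℂ] E) (y y' : Pnt io K) : dh (mapP α y) (mapP α y') = pb α (dh y y') := by
  rw [dh_eq, dh_eq, dl_map, da_map, ← pb_sz, map_neg]

theorem dh_of_par (h : Par y y') (h' : NZ y') : dh y y' = 0 := by
  rw [dh_eq, (Node22.dl_eq_zero (Par.nz h h') h').2 h, sz_zero, neg_zero]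

/-- on the support of the divisor of the diagonal the points agree -/
theorem par_of_dh (h : NZ y) (h' : NZ y') {V : RZ ℂ K} (hV : (dh y y').val V ≠ 1) :
    Par (rp (plV V) y) (rp (plV V) y') := by
  have hc : ∀ (y : Pnt io K) j, ((ln y j).gen V)⁻¹ ≠ 0 := fun y j => inv_ne_zero (gen_ne _ _)
  have hp : ∀ {y : Pnt io K}, NZ y → Prim V (scl (fun j => ((ln y j).gen V)⁻¹) y) := fun h =>
    prim_scl h fun j => by rw [map_inv₀, v_gen]
  rw [← dh_scl h h' (hc y) (hc y')] at hV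
  have h1 := hp h
  have h2 := hp h'
  unfold rp
  change Par (redP _ (scl (fun j => ((ln y j).gen V)⁻¹) y))
    (redP _ (scl (fun j => ((ln y' j).gen V)⁻¹) y'))
  generalize scl (fun j => ((ln y j).gen V)⁻¹) y = u at hV h1
  generalize scl (fun j => ((ln y' j).gen V)⁻¹) y' = u' at hV h2
  have h3 : ∀ x, (da u u' x).val V = 1 := fun x => by
    rw [da, val_add, h1.val_ln, h2.val_ln, mul_one]
  have h4 : ∀ x, dl u u' x ∈ V.1 := fun x =>
    sub_mem (mul_mem ((h1 _).1 _) ((h2 _).1 _)) (mul_mem ((h1 _).1 _) ((h2 _).1 _))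
  have h0 : dl u u' ≠ 0 := fun h0 => hV (by rw [dh_eq, h0, sz_zero, neg_zero, val_zero])
  rw [dh_eq, val_neg, val_sz h0, Ne, inv_eq_one] at hV
  have h5 : nm (da u u') V (dl u u') ≤ 1 :=
    nm_le.2 fun x => by rw [h3, mul_one]; exact RZ.le_one_iff.2 (h4 x)
  refine Node22.par_red_of_dl (p := plV V) h1 h2 fun x => ?_
  have := le_nm (da u u') V (dl u u') x
  rw [h3, mul_one] at this
  exact this.trans_lt (lt_of_le_of_ne h5 hV)

theorem par_rp_map (θ : K →ₐ[ℂ] L) (V : RZ ℂ L) (h : NZ y) :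
    Par (rp (plV V) (mapP θ y)) (mapP (rf θ V) (rp (plV (dn θ V)) y)) := by
  let z : Cfg io Unit K := ⟨fun _ => y, fun _ => ⊤⟩
  have hz : z.NZ := fun _ => h
  have h1 := Cfg.red_map θ (LP.at V) hz
  rw [Val40.Sq.comp_eq (p := LP.at (dn θ V)) (q := LP.at V) (Val40.sq_rf θ V)] at h1
  obtain ⟨c, hc, e⟩ := (Cfg.map_red (LP.at (dn θ V)) (rf θ V) hz).symm.trans h1
  exact ⟨c (), hc (), congrArg (fun w : Cfg io Unit (Rf V) => w.y ()) e⟩

variable (B : Th) in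
/-- the excess polynomial of the tangent space of the ambient space -/
def cqT (y y' : Pnt io K) : (B.H K)[X] := B.cq (da y y') (TP y y')

theorem om_eq (B : Th) (y y' : Pnt io K) (V : RZ ℂ K) : om B y y' V =
    (cqT B (rp (plV V) y) (rp (plV V) y')).eval (B.pb (LP.at V) (B.c1 (dh y y'))) := rfl

variable {B : Th} (hB : B.Ax)
include hB

theorem cqT_par [Algebra.EssFiniteType ℂ K] (h : Par z y) (h' : Par z' y') (hy : NZ y)
    (hy' : NZ y') : cqT B z z' = cqT B y y' := by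
  obtain ⟨c, hc, rfl⟩ := h
  obtain ⟨c', hc', rfl⟩ := h'
  rw [cqT, Node22.TP_scl hc hc']
  exact hB.cq_dia (a := da y y') (c := gD c c') (gD_ne hc hc') (da_scl hy hy' hc hc') (TP y y')

theorem cqT_map [Algebra.EssFiniteType ℂ K] [Algebra.EssFiniteType ℂ E] (α : K →ₐ[ℂ] E)
    (h : Par y y') (h' : NZ y') :
    (cqT B y y').map (B.pb (LP.hom α) : B.H K →+* B.H E) = cqT B (mapP α y) (mapP α y') := by
  rw [cqT, hB.cq_rd fun x => val_hom α _, rd_eq,
    Node22.TP_red h (prim_hom α (Par.nz h h')) (prim_hom α h'), redP_hom, redP_hom, cqT, da_map]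
  rfl

theorem om_par [Algebra.EssFiniteType ℂ K] (h : Par z y) (h' : Par z' y') (hy : NZ y)
    (hy' : NZ y') {V : RZ ℂ K} (hV : Dvs V) : om B z z' V = om B y y' V := by
  have := essFT_Rf hV
  rw [om_eq, om_eq, dh_par h h' hy hy',
    cqT_par hB (par_rp h hy _) (par_rp h' hy' _) (nz_rp hy _) (nz_rp hy' _)]

theorem om_map [Algebra.EssFiniteType ℂ K] [Algebra.EssFiniteType ℂ L] (θ : K →ₐ[ℂ] L)
    (hy : NZ y) (hy' : NZ y') {V : RZ ℂ L} (hV : Dvs V) (hV' : Dvs (dn θ V))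
    (h : (dh y y').val (dn θ V) ≠ 1) :
    om B (mapP θ y) (mapP θ y') V = B.pb (LP.hom (rf θ V)) (om B y y' (dn θ V)) := by
  have := essFT_Rf hV
  have := essFT_Rf hV'
  rw [om_eq, om_eq, pb_eval, cqT_map hB _ (par_of_dh hy hy' h) (nz_rp hy' _),
    cqT_par hB (par_rp_map θ V hy) (par_rp_map θ V hy') ((nz_map _).2 (nz_rp hy _))
      ((nz_map _).2 (nz_rp hy' _)), dh_map, ← hB.pb_c1_hom,
    Val40.Sq.pb (p := LP.at (dn θ V)) (q := LP.at V) (Val40.sq_rf θ V) hB]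

/-- one term of the splitting formula -/
theorem term (hP : PbdStmt) {T : Tgt io A} {F E₀ : Type} [Field F] [Algebra ℂ F]
    [Algebra.EssFiniteType ℂ F] [Field E₀] [Algebra ℂ E₀] [Algebra.EssFiniteType ℂ E₀]
    [Algebra.EssFiniteType ℂ E] (h0 : 0 < dimP io) {ι : F →ₐ[ℂ] E} {β : E₀ →ₐ[ℂ] E}
    (hd : dimP io + dim ℂ E₀ ≤ dim ℂ E + 1) {w : Cfg io I F} {m : M → I} {w' : Cfg io I' E₀}
    {m' : M → I'} (hw : w.NZ) (hw' : w'.NZ) {Φ : MFam B io M} (hΦ : MCls B T Φ)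
    (hp : ∀ q, Par ((w.map ι).y (m q)) ((w'.map β).y (m' q)))
    (hf : ∀ ω, ful B T (w.map ι) m Φ ω = ful B T (w'.map β) m' Φ ω) {a b : M}
    (hab : Par (w.y (m a)) (w.y (m b))) (h : BD ℂ F) : ∃ n : ℂ,
      (dimP io + dim ℂ E₀ < dim ℂ E + 1 → n = 0) ∧
      deg ι * ful B T w m Φ ((cqT B (w.y (m a)) (w.y (m b))).eval (B.c1 h)) =
        n * ful B T w' m' Φ 1 ∧
      ∀ φ, B.itg E (B.pb (LP.hom ι) ((cqT B (w.y (m a)) (w.y (m b))).eval (B.c1 h)) *
        B.pb (LP.hom β) φ) = n * B.itg E₀ φ := by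
  have h1 : Par (w'.y (m' a)) (w'.y (m' b)) :=
    par_of_map (α := β) (hw' _) (hw' _) ((hp a).symm.trans ((par_map hab ι).trans (hp b)))
  obtain ⟨s, hs⟩ := Nat.exists_eq_succ_of_ne_zero h0.ne'
  have h2 : Module.finrank E₀ (TP (w'.y (m' a)) (w'.y (m' b))) = s + 1 := by
    rw [Node22.finrank_TP h1 (hw' _), hs]
  obtain ⟨n, h3, h4, h5⟩ := (hP B hB T β).2 (cqT B (w'.y (m' a)) (w'.y (m' b))) s ((-1) ^ s)
    (pb ι h) (natDegree_le_iff_coeff_eq_zero.2 fun n hn => hB.coeff_cq_gt h2 hn)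
    (by rw [cqT, hB.coeff_cq_top h2, map_pow, map_neg, map_one]) (by omega)
  have h6 : B.pb (LP.hom ι) ((cqT B (w.y (m a)) (w.y (m b))).eval (B.c1 h)) =
      ((cqT B (w'.y (m' a)) (w'.y (m' b))).map (B.pb (LP.hom β) : B.H E₀ →+* B.H E)).eval
        (B.c1 (pb ι h)) := by
    rw [pb_eval, cqT_map hB ι hab (hw _), cqT_map hB β h1 (hw' _), hB.pb_c1_hom]
    exact congrArg (eval _) (cqT_par hB (hp a) (hp b) (hw'.map β _) (hw'.map β _))
  refine ⟨n, fun h7 => h3 (by omega), ?_, fun φ => by rw [h6, h4]⟩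
  rw [← (hP B hB T ι).1 w m Φ _ hw hΦ, hf, h6, h5 w' m' Φ hw' hΦ]

end Crest.Agent.X262.Wd54
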