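import Crest.Agent.X262.Wv65.Fin2
import Crest.Agent.X262.Drop30.Main
import Crest.Agent.X262.Ord23.Main

/-!
# Row 262, road B: the associativity equation
-/

set_option autoImplicit false

namespace Crest.Agent.X262.Wd54

/-- **WDVV** -/
theorem wdvvStmt : Vb.WdvvStmt :=
  Wv65.wdvv_of3 (fun _ _ _ => Wv65.dropU_of Drop30.dropStmt) fun _ _ _ => Ord23.ordStmt

end Crest.Agent.X262.Wd54
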